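import Vale.Agent.P216BG.Mcp
import Vale.Agent.P216DC.Stm2

/-!
# P216BG/Bgc: volume ratios in dimension three
-/

open scoped Manifold ContDiff Topology ENNReal
open Set Filter MeasureTheory
open Vale.Agent.P216R Vale.Agent.P216CP Vale.Agent.P216DC Vale.Agent.P216BF

set_option maxSynthPendingDepth 3

noncomputable section

namespace Vale.Agent.P216BG

variable {M : Type} [TopologicalSpace M] [ChartedSpace E3 M] [IsManifold 𝓘(ℝ, E3) ∞ M]
  [MeasurableSpace M] [BorelSpace M] {g : Ten E3 M} {U : Set M} {x : M} {w k r s : ℝ}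

/-- `Ric ≥ -2 k²` on the ball of radius `r` -/
theorem vl_of_ric (hg : Met g U) (hH : Hs U) (hc : Cpt g U x r) (hk : 0 ≤ k)
    (h : ∀ y ∈ bl g U x r, RicGe g y (-2 * k ^ 2)) (hw : 0 ≤ w) (hs : 0 < s) (hr : s ≤ r)
    (hv : Vl w g U x r) : Vl ((r / sn k r) ^ 2 * w) g U x s := by
  have e : Module.finrank ℝ E3 = 3 := by simp
  have r0 := hs.trans_le hr
  have b := (bg E3 M g U x r k hg hH hc r0 hk (by simp) fun y hy v => by
    rw [e]; exact le_of_eq_of_le (by ring) (h y hy v)).2.1 s hs hr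
  have p := sn_pos hk r0
  have q := le_sn hk hs.le
  refine le_trans ?_ ((mul_le_mul_right hv _).trans b)
  rw [e, ← ENNReal.ofReal_mul (by have := sn_pos hk hs; positivity)]
  refine ENNReal.ofReal_le_ofReal (le_of_eq_of_le (b := s / r * (s / sn k r) ^ (3 - 1) * (w * r ^ 3))
    (by rw [show 3 - 1 = 2 from rfl]; field_simp) (by gcongr))

theorem vl_of_sec (hg : Met g U) (hH : Hs U) (hc : Cpt g U x r) (hk : 0 ≤ k)
    (h : ∀ y ∈ bl g U x r, SecGe g y (-k ^ 2)) (hw : 0 ≤ w) (hs : 0 < s) (hr : s ≤ r)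
    (hv : Vl w g U x r) : Vl ((r / sn k r) ^ 2 * w) g U x s :=
  vl_of_ric hg hH hc hk (fun y hy => by
    convert ricGe_of_sec hg (mem_of_bl hy).2 (h y hy) using 1
    rw [finrank_E3]; push_cast; ring) hw hs hr hv

/-- nonnegative curvature -/
theorem vl_of_sec0 (hg : Met g U) (hH : Hs U) (hc : Cpt g U x r)
    (h : ∀ y ∈ bl g U x r, SecGe g y 0) (hw : 0 ≤ w) (hs : 0 < s) (hr : s ≤ r)
    (hv : Vl w g U x r) : Vl w g U x s := by
  simpa [sn, (hs.trans_le hr).ne'] using
    vl_of_sec hg hH hc le_rfl (by simpa using h) hw hs hr hv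

theorem bgc : BGC := by
  have p : 0 < Real.sinh 1 := Real.sinh_pos_iff.2 one_pos
  refine ⟨(1 / Real.sinh 1) ^ 2, by positivity, fun M _ _ _ _ _ g U x w r s hg hH hc h hw hs hr hv =>
    ?_⟩
  have r0 := hs.trans_le hr
  convert vl_of_sec hg hH hc (k := 1 / r) (by positivity) (by simpa using h) hw hs hr hv using 3
  rw [sn, if_neg (by positivity), one_div_mul_cancel r0.ne']
  field_simp

end Vale.Agent.P216BG
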