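import Vale.Agent.P216FB.Defs
import Vale.Agent.P216LS.PoU
import Mathlib.Analysis.SpecialFunctions.SmoothTransition

/-!
# P216BG/Clamp: extension of a Lipschitz weight over the caps
-/

open scoped Manifold ContDiff Topology RealInnerProductSpace
open Set Metric Real
open Filter hiding comap
open Vale.Agent.P216R Vale.Agent.P216SG Vale.Agent.P216ST Vale.Agent.P216FB Vale.Agent.P216LS
open Vale.Agent.P210.R2.H53 (gradG gamG)

set_option maxSynthPendingDepth 3

noncomputable section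

namespace Vale.Agent.P216BG

/-- a smooth version of the positive part -/
def Q (x : ℝ) : ℝ := ∫ t in (0 : ℝ)..x, smoothTransition t

theorem hasDerivAt_Q (x : ℝ) : HasDerivAt Q (smoothTransition x) x :=
  (smoothTransition.continuous.integral_hasStrictDerivAt 0 x).hasDerivAt

theorem contDiff_Q : ContDiff ℝ ∞ Q :=
  contDiff_infty_iff_deriv.2 ⟨fun x => (hasDerivAt_Q x).differentiableAt, by
    rw [show deriv Q = _ from funext fun x => (hasDerivAt_Q x).deriv]
    exact smoothTransition.contDiff⟩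

theorem Q_mono : Monotone Q :=
  monotone_of_deriv_nonneg (contDiff_Q.differentiable (by simp)) fun x =>
    (hasDerivAt_Q x).deriv ▸ smoothTransition.nonneg x

theorem Q_sub_le {x y : ℝ} (h : x ≤ y) : Q y - Q x ≤ y - x := by
  linarith [image_sub_le_mul_sub_of_deriv_le (contDiff_Q.differentiable (by simp))
    (fun x => (hasDerivAt_Q x).deriv ▸ smoothTransition.le_one x) h]

theorem Q_zero {x : ℝ} (h : x ≤ 0) : Q x = 0 := by
  rw [Q, intervalIntegral.integral_congr (g := fun _ => 0) fun t ht =>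
    smoothTransition.zero_of_nonpos (by rw [uIcc_of_ge h] at ht; exact ht.2)]
  simp

theorem Q_nonneg (x : ℝ) : 0 ≤ Q x := (Q_zero (min_le_left 0 x)).ge.trans (Q_mono (min_le_right _ _))

theorem Q_one {x : ℝ} (h : 1 ≤ x) : Q x = Q 1 + (x - 1) := by
  have c := fun a b => smoothTransition.continuous.intervalIntegrable (μ := MeasureTheory.volume) a b
  rw [Q, ← intervalIntegral.integral_add_adjacent_intervals (c 0 1) (c 1 x),
    intervalIntegral.integral_congr (a := 1) (g := fun _ => 1) fun t ht =>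
      smoothTransition.one_of_one_le (by rw [uIcc_of_le h] at ht; exact ht.1)]
  simp [Q]

/-- a smooth version of the absolute value -/
def Av (x : ℝ) : ℝ := Q x + Q (-x)

theorem contDiff_Av : ContDiff ℝ ∞ Av := contDiff_Q.add (contDiff_Q.comp contDiff_neg)

theorem exists_Av (x : ℝ) : ∃ a, |a| ≤ 1 ∧ HasDerivAt Av a x :=
  ⟨_, abs_le.2 ⟨by linarith [smoothTransition.nonneg x, smoothTransition.le_one (-x)],
    by linarith [smoothTransition.nonneg (-x), smoothTransition.le_one x]⟩,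
    (hasDerivAt_Q x).add ((hasDerivAt_Q (-x)).comp x (hasDerivAt_neg' x))⟩

/-- the number `s` clamped to the interval `[-b, b]` -/
def cl (s b : ℝ) : ℝ := (Av (s + b) - Av (s - b)) / 2

theorem cl_eq {s b : ℝ} (h : |s| + 1 ≤ b) : cl s b = s := by
  have := abs_le.1 (le_sub_iff_add_le.2 h)
  rw [cl, Av, Av, Q_one (x := s + b) (by linarith), Q_zero (x := -(s + b)) (by linarith),
    Q_zero (x := s - b) (by linarith), Q_one (x := -(s - b)) (by linarith)]
  ring

theorem le_cl {s b : ℝ} (h : 0 ≤ b) : min s 0 ≤ cl s b := by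
  rw [cl, Av, Av]
  have := Q_nonneg (-(s + b))
  rcases le_total s 0 with hs | hs
  · rw [min_eq_left hs, Q_zero (x := s - b) (by linarith)]
    linarith [Q_sub_le (x := s + b) (y := -(s - b)) (by linarith)]
  rw [min_eq_right hs]
  rcases le_total s b with h1 | h1
  · rw [Q_zero (x := s - b) (by linarith)]
    linarith [Q_mono (show -(s - b) ≤ s + b by linarith)]
  · rw [Q_zero (x := -(s - b)) (by linarith)]
    linarith [Q_mono (show s - b ≤ s + b by linarith)]

theorem abs_comb {p q X Y T : ℝ} (hp : |p| ≤ 1) (hq : |q| ≤ 1) (hX : |X| ≤ T) (hY : |Y| ≤ T) :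
    |(p * (X + Y) - q * (X - Y)) / 2| ≤ T := by
  have h1 : |p * (X + Y)| ≤ |X + Y| := by rw [abs_mul]; exact mul_le_of_le_one_left (abs_nonneg _) hp
  have h2 : |q * (X - Y)| ≤ |X - Y| := by rw [abs_mul]; exact mul_le_of_le_one_left (abs_nonneg _) hq
  have := abs_sub (p * (X + Y)) (q * (X - Y))
  rw [abs_div, abs_two]
  rw [abs_le] at hX hY
  cases abs_cases (X + Y) <;> cases abs_cases (X - Y) <;> linarith

theorem exp_lt : exp (-20) < exp (-19) ∧ exp (-19) < 1 / 2 :=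
  ⟨exp_lt_exp.2 (by norm_num), by
    rw [exp_neg, ← one_div]
    exact one_div_lt_one_div_of_lt two_pos (by linarith [add_one_le_exp 19])⟩

variable {G : E3 → Bil E3} {w : E3 → ℝ} {h L m : ℝ}

theorem chord (hh : 0 < h) (hL : 0 < L)
    (hi : ∀ x ∈ col, ∀ v, ‖x‖ ^ 2 * G x v v ≤ 3 * h ^ 2 * ‖v‖ ^ 2)
    (hw : ∀ x ∈ col, ContDiffAt ℝ ∞ w x) (hd : ∀ x ∈ col, ∀ v, |fderiv ℝ w x v| ≤ L * √(G x v v))
    {p q : E3} (hp : ‖p‖ ∈ Ico 1 2) (hq : ‖q‖ = 1) (hpq : 0 ≤ ⟪p, q⟫) :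
    |w p - w q| ≤ 8 * (L * h) := by
  have key : ∀ y ∈ segment ℝ q p, y ∈ col ∧ 1 / 2 ≤ ‖y‖ ^ 2 := fun y hy => by
    have h2 : y ∈ ball (0 : E3) 2 := (convex_ball 0 2).segment_subset (by simp [hq])
      (by simpa using hp.2) hy
    obtain ⟨a, b, ha, hb, e, rfl⟩ := hy
    have h1 : 1 / 2 ≤ ‖a • q + b • p‖ ^ 2 := by
      rw [norm_add_sq_real, norm_smul, norm_smul, inner_smul_left, inner_smul_right,
        real_inner_comm, hq, norm_eq_abs, norm_eq_abs, mul_pow, mul_pow, sq_abs, sq_abs]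
      have := mul_nonneg ha (mul_nonneg hb hpq)
      have := mul_le_mul_of_nonneg_left (one_le_pow₀ hp.1 (n := 2)) (sq_nonneg b)
      simp only [conj_trivial]
      nlinarith [sq_nonneg (a - b)]
    exact ⟨⟨by nlinarith [exp_lt, norm_nonneg (a • q + b • p), exp_pos (-20)], by simpa using h2⟩, h1⟩
  have := (convex_segment q p).norm_image_sub_le_of_norm_fderiv_le (C := L * (5 / 2 * h))
    (fun y hy => (hw y (key y hy).1).differentiableAt (by simp))
    (fun y hy => ContinuousLinearMap.opNorm_le_bound _ (by positivity) fun v => by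
      refine (hd y (key y hy).1 v).trans ?_
      rw [mul_assoc]
      refine mul_le_mul_of_nonneg_left (sqrt_le_iff.2 ⟨by positivity, ?_⟩) hL.le
      have h1 := hi y (key y hy).1 v
      have h2 := (key y hy).2
      have h3 : 0 ≤ h ^ 2 * ‖v‖ ^ 2 := by positivity
      by_contra hc
      nlinarith)
    (left_mem_segment ℝ q p) (right_mem_segment ℝ q p)
  have h4 := norm_sub_le p q
  rw [norm_eq_abs] at this
  nlinarith [hp.2, mul_pos hL hh]

/-- the extension over the ball -/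
theorem core (hh : 0 < h) (hL : 0 < L)
    (lo : ∀ x ∈ col, ∀ v, h ^ 2 * ‖v‖ ^ 2 ≤ ‖x‖ ^ 2 * G x v v)
    (hi : ∀ x ∈ col, ∀ v, ‖x‖ ^ 2 * G x v v ≤ 3 * h ^ 2 * ‖v‖ ^ 2)
    (hw : ∀ x ∈ col, ContDiffAt ℝ ∞ w x) (hm : ∀ x ∈ col, m ≤ w x)
    (hd : ∀ x ∈ col, ∀ v, |fderiv ℝ w x v| ≤ L * √(G x v v)) :
    ∃ F : E3 → ℝ, (∀ x ∈ ann 1 2, F x = w x) ∧ ∀ x ∈ ball (0 : E3) 2, ContDiffAt ℝ ∞ F x ∧
      m ≤ F x ∧ (fderiv ℝ F x = 0 ∨ x ∈ col ∧ ∀ v, |fderiv ℝ F x v| ≤ L * √(G x v v)) := by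
  have l0 := mul_pos hL hh
  set e : E3 := EuclideanSpace.single 0 1
  have he : ‖e‖ = 1 := by simp [e]
  have hc : m ≤ w e := hm e ⟨by linarith [exp_lt], by linarith⟩
  let β : E3 → ℝ := fun x => Q (log (‖x‖ ^ 2) / 2 + 19)
  let F : E3 → ℝ := fun x => w e + L * h * cl ((w x - w e) / (L * h)) (β x)
  refine ⟨fun x => if ‖x‖ ≤ exp (-20) then w e else F x, fun x hx => ?_, fun x hx => ?_⟩
  · have h1 : |w x - w e| ≤ 16 * (L * h) := by
      obtain ⟨q, q1, q2, q3⟩ : ∃ q : E3, ‖q‖ = 1 ∧ 0 ≤ ⟪x, q⟫ ∧ 0 ≤ ⟪q, e⟫ := by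
        rcases le_total 0 ⟪x, EuclideanSpace.single 1 1⟫ with h | h
        · exact ⟨_, by simp, h, by simp [e, EuclideanSpace.inner_single_left]⟩
        · exact ⟨-EuclideanSpace.single 1 1, by simp, by rwa [inner_neg_right, neg_nonneg],
            by simp [e, EuclideanSpace.inner_single_left]⟩
      linarith [chord hh hL hi hw hd ⟨hx.1.le, hx.2⟩ q1 q2,
        chord hh hL hi hw hd ⟨q1.ge, by linarith⟩ he q3, abs_sub_le (w x) (w q) (w e)]
    have h2 : 0 ≤ log (‖x‖ ^ 2) := log_nonneg (one_le_pow₀ hx.1.le)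
    simp only [F, β]
    rw [if_neg (by linarith [exp_lt, hx.1]), cl_eq]
    · field_simp; ring
    rw [abs_div, abs_of_pos l0, Q_one (by linarith)]
    linarith [(div_le_iff₀ l0).2 h1, Q_nonneg 1]
  rcases lt_or_ge ‖x‖ (exp (-19)) with h1 | h1
  · have h2 : (fun x => if ‖x‖ ≤ exp (-20) then w e else F x) =ᶠ[𝓝 x] fun _ => w e := by
      filter_upwards [continuous_norm.continuousAt.eventually (gt_mem_nhds h1)] with y hy
      split_ifs with h3
      · rfl
      have h4 := log_lt_log ((exp_pos _).trans (not_le.1 h3)) hy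
      simp only [F, β]
      rw [Q_zero (by rw [log_pow, log_exp] at *; push_cast; linarith)]
      simp [cl]
    exact ⟨contDiffAt_const.congr_of_eventuallyEq h2, hc.trans h2.eq_of_nhds.ge,
      .inl (h2.fderiv_eq.trans (fderiv_const_apply _))⟩
  have hx' : x ∈ col := ⟨exp_lt.1.trans_le h1, by simpa using hx⟩
  have h2 : (fun x => if ‖x‖ ≤ exp (-20) then w e else F x) =ᶠ[𝓝 x] F := by
    filter_upwards [continuous_norm.continuousAt.eventually (lt_mem_nhds hx'.1)] with y hy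
    exact if_neg (not_le.2 hy)
  have x0 : 0 < ‖x‖ := (exp_pos _).trans_le h1
  have c1 : ContDiffAt ℝ ∞ β x := contDiff_Q.contDiffAt.comp x
    ((((contDiff_norm_sq ℝ).contDiffAt.log (by positivity)).div_const 2).add contDiffAt_const)
  have c2 : ContDiffAt ℝ ∞ (fun y => (w y - w e) / (L * h)) x :=
    ((hw x hx').sub contDiffAt_const).div_const _
  refine ⟨ContDiffAt.congr_of_eventuallyEq (contDiffAt_const.add (contDiffAt_const.mul
    (((contDiff_Av.contDiffAt.comp x (c2.add c1)).sub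
      (contDiff_Av.contDiffAt.comp x (c2.sub c1))).div_const 2))) h2, ?_, .inr ⟨hx', fun v => ?_⟩⟩
  · refine le_of_le_of_eq ?_ h2.eq_of_nhds.symm
    have h3 := mul_le_mul_of_nonneg_left (le_cl (s := (w x - w e) / (L * h)) (Q_nonneg
      (log (‖x‖ ^ 2) / 2 + 19))) l0.le
    rw [mul_min_of_nonneg _ _ l0.le, mul_div_cancel₀ _ l0.ne', mul_zero] at h3
    have := hm x hx'
    simp only [F, β]
    cases min_cases (w x - w e) 0 <;> linarith
  obtain ⟨p, p1, p2⟩ := exists_Av ((w x - w e) / (L * h) + β x)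
  obtain ⟨q, q1, q2⟩ := exists_Av ((w x - w e) / (L * h) - β x)
  have d1 := (hasDerivAt_Q _).comp_hasFDerivAt x ((((hasStrictFDerivAt_norm_sq x).hasFDerivAt.log
    (by positivity)).mul_const 2⁻¹).add_const 19)
  have d2 := (((hw x hx').differentiableAt (by simp)).hasFDerivAt.sub_const (w e)).mul_const
    (L * h)⁻¹
  have d3 := ((((p2.comp_hasFDerivAt x (d2.add d1)).sub
    (q2.comp_hasFDerivAt x (d2.sub d1))).mul_const 2⁻¹).const_mul (L * h)).const_add (w e)
  rw [h2.fderiv_eq, show fderiv ℝ F x = _ from d3.fderiv]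
  have b1 : |L * h * (smoothTransition (log (‖x‖ ^ 2) * 2⁻¹ + 19) * (⟪x, v⟫ / ‖x‖ ^ 2))| ≤
      L * √(G x v v) := by
    rw [mul_assoc, abs_mul, abs_of_pos hL, abs_mul, abs_of_pos hh, abs_mul, abs_div,
      abs_of_nonneg (smoothTransition.nonneg _), abs_of_nonneg (sq_nonneg ‖x‖)]
    refine mul_le_mul_of_nonneg_left (le_trans (b := h * (1 * (‖x‖ * ‖v‖ / ‖x‖ ^ 2))) (by
      gcongr
      exacts [smoothTransition.le_one _, abs_real_inner_le_norm x v])
      (le_sqrt_of_sq_le ?_)) hL.le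
    field_simp
    linarith [lo x hx' v]
  convert abs_comb p1 q1 (hd x hx' v) b1 using 2
  simp
  field_simp

variable {M : Type} [TopologicalSpace M] [ChartedSpace E3 M] [IsManifold 𝓘(ℝ, E3) ∞ M]
  {g : Ten E3 M} {U U' : Set M} {p : M → ℝ}

theorem gam_emb_le (hg : Met g U) {φ : E3 → M} {A : Set E3} (h : Emb φ A U) {z : E3} (hz : z ∈ A)
    (hp : SR E3 p (φ z)) (hL : 0 ≤ L) : gam g p p (φ z) ≤ L ^ 2 ↔
      ∀ v, |fderiv ℝ (p ∘ φ) z v| ≤ L * √(comap φ g z v v) := by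
  have hG := hg.isMetricOn_comap h.ld h.mem
  rw [gam_comp hg h.ld hz (h.mem hz) hp hp]
  exact dual_le_iff (hG.symm z hz) (hG.pos z hz) _ hL

/-- extension of a Lipschitz function over the caps -/
theorem ext (hg : Met g U) (hg' : Met g U') (hc : Caps g U U') (hL : 0 < L)
    (hp : ∀ x ∈ U, SR E3 p x ∧ m ≤ p x ∧ gam g p p x ≤ L ^ 2) :
    ∃ p', (∀ x ∈ U', SR E3 p' x ∧ m ≤ p' x ∧ gam g p' p' x ≤ L ^ 2) ∧ ∀ x ∈ U, p' x = p x := by
  classical
  obtain ⟨J, h1, h2, h3⟩ := hc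
  choose! F F1 F2 using fun j hj => core (w := p ∘ j.1) (h1 j hj).pos hL (h1 j hj).lo (h1 j hj).hi
    (fun x hx => (hp _ ((h1 j hj).nk.mem hx)).1.comp_ld ((h1 j hj).nk.ld.sm hx))
    (fun x hx => (hp _ ((h1 j hj).nk.mem hx)).2.1) fun x hx => (gam_emb_le hg (h1 j hj).nk hx
      (hp _ ((h1 j hj).nk.mem hx)).1 hL.le).1 (hp _ ((h1 j hj).nk.mem hx)).2.2
  choose k hk ζ hζ e using h3
  let q : M → ℝ := fun x => if hx : x ∈ U' ∧ x ∉ U then F (k x hx.1 hx.2) (ζ x hx.1 hx.2) else p x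
  have q1 : ∀ x ∈ U, q x = p x := fun x hx => dif_neg fun h => h.2 hx
  have q2 : ∀ j ∈ J, ∀ z ∈ ball (0 : E3) 2, q (j.2.1 z) = F j z := fun j hj z hz => by
    rcases le_or_gt ‖z‖ 1 with z1 | z1
    · have z2 : z ∈ closedBall (0 : E3) 1 := by simpa using z1
      have a := (h1 j hj).cp.mem hz
      have b := (h1 j hj).new z z2
      have e1 : k _ a b = j := by_contra fun hne =>
        disjoint_left.1 (h2 (hk _ a b) hj hne) ⟨_, hζ _ a b, e _ a b⟩ ⟨z, z2, rfl⟩
      have e2 := e _ a b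
      rw [e1] at e2
      simp only [q]
      rw [dif_pos ⟨a, b⟩, e1,
        (h1 j hj).cp.inj (closedBall_subset_ball (by norm_num) (hζ _ a b)) hz e2]
    · have z2 : z ∈ ann 1 2 := ⟨z1, by simpa using hz⟩
      rw [(h1 j hj).eq z z2, F1 j hj z z2,
        q1 _ ((h1 j hj).nk.mem ⟨by linarith [exp_lt], z2.2⟩)]
      rfl
  refine ⟨q, fun x hx => ?_, q1⟩
  by_cases hU : x ∈ U
  · have : q =ᶠ[𝓝 x] p := by filter_upwards [hg.isOpen.mem_nhds hU] using q1
    exact ⟨(hp x hU).1.congr_of_eventuallyEq this, q1 x hU ▸ (hp x hU).2.1,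
      (gam_congr rfl this this).trans_le (hp x hU).2.2⟩
  have hj := hk x hx hU
  have hz : ζ x hx hU ∈ ball (0 : E3) 2 := closedBall_subset_ball (by norm_num) (hζ x hx hU)
  rw [← e x hx hU]
  generalize k x hx hU = j at hj
  generalize ζ x hx hU = z at hz
  obtain ⟨c1, c2, c3⟩ := F2 j hj z hz
  obtain ⟨κ, κ1, κ2, κ3⟩ := exists_inv ((h1 j hj).cp.ld.sm hz) ((h1 j hj).cp.ld.inj z hz)
  have κ4 := κ2.self_of_nhds
  have s : SR E3 q (j.2.1 z) := by
    refine (ContMDiffAt.comp _ (by rw [κ4]; exact c1.contMDiffAt) κ1).congr_of_eventuallyEq ?_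
    filter_upwards [κ3, κ1.continuousAt (isOpen_ball.mem_nhds (κ4.symm ▸ hz))] with y y1 y2
    rw [Function.comp, ← q2 j hj _ y2, y1]
  have e3 : q ∘ j.2.1 =ᶠ[𝓝 z] F j := by
    filter_upwards [isOpen_ball.mem_nhds hz] using q2 j hj
  refine ⟨s, q2 j hj z hz ▸ c2, (gam_emb_le hg' (h1 j hj).cp hz s hL.le).2 fun v => ?_⟩
  rw [e3.fderiv_eq]
  rcases c3 with c3 | c3
  · rw [c3, zero_apply, abs_zero]; positivity
  · rw [(h1 j hj).met z c3.1]; exact c3.2 v

theorem gam_comp_sq {x : M} {F : ℝ → ℝ} {a : ℝ} (h : SR E3 p x)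
    (hF : HasDerivAt F a (p x)) :
    gam g (fun y => F (p y)) (fun y => F (p y)) x = a ^ 2 * gam g p p x := by
  have h1 : HasDerivAt F a (rd E3 p x (pt E3 x)) := by rwa [rd_pt]
  have h2 : dF E3 (fun y => F (p y)) x = a • dF E3 p x :=
    (h1.comp_hasFDerivAt _ h.diff.hasFDerivAt).fderiv
  simp only [gam_dF, h2, map_smul, smul_apply, smul_eq_mul]
  ring

theorem clamp : CLAMP := by
  classical
  intro M _ _ _ g U U' τ u hτ hg hg' hc hu hb
  have l2 := log_pos one_lt_two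
  have s0 := sqrt_pos.2 hτ
  have a1 : ∀ x ∈ U, log 2 ≤ log (2 / u x) := fun x hx =>
    log_le_log two_pos (by rw [le_div_iff₀ (hb.pos x hx)]; linarith [hb.le x hx])
  obtain ⟨p, p1, p2⟩ := ext (p := fun x => √(log (2 / u x))) (m := √(log 2)) (L := 1 / (2 * √τ))
    hg hg' hc (by positivity) fun x hx => by
      have u0 := hb.pos x hx
      have l0 := l2.trans_le (a1 x hx)
      have su := (sm0_iff hg.isOpen).1 hu x hx
      refine ⟨ContDiffAt.comp_contMDiffAt (g := fun s => √(log (2 / s)))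
        (((contDiffAt_const.div contDiffAt_id u0.ne').log (div_pos two_pos u0).ne').sqrt l0.ne') su,
        sqrt_le_sqrt (a1 x hx), ?_⟩
      rw [gam_comp_sq su (F := fun s => √(log (2 / s))) ((((hasDerivAt_const (u x) 2).div
        (hasDerivAt_id' (u x)) u0.ne').log (div_pos two_pos u0).ne').sqrt l0.ne')]
      simp only [Pi.div_apply]
      field_simp
      rw [sq_sqrt l0.le, sq_sqrt hτ.le]
      linarith [hb.grad x hx]
  have e : ∀ x ∈ U', (fun y => if y ∈ U' \ U then 2 * exp (-p y ^ 2) else u y) =ᶠ[𝓝 x]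
      fun y => 2 * exp (-p y ^ 2) := fun x hx => by
    filter_upwards [hg'.isOpen.mem_nhds hx] with y hy
    split_ifs with h
    · rfl
    have hU : y ∈ U := by_contra fun h' => h ⟨hy, h'⟩
    have := hb.pos y hU
    rw [p2 y hU, sq_sqrt (l2.le.trans (a1 y hU)), exp_neg, exp_log (by positivity)]
    field_simp
  refine ⟨_, (sm0_iff hg'.isOpen).2 fun x hx => (ContDiffAt.comp_contMDiffAt
    (g := fun s => 2 * exp (-s ^ 2)) (by fun_prop) (p1 x hx).1).congr_of_eventuallyEq (e x hx),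
    ⟨fun x hx => ?_, fun x hx => ?_, fun x hx => ?_⟩, fun x hx => if_neg hx⟩
  · rw [(e x hx).eq_of_nhds]; positivity
  · have := exp_le_exp.2 (neg_le_neg ((sq_sqrt l2.le).ge.trans
      (pow_le_pow_left₀ (sqrt_nonneg _) (p1 x hx).2.1 2)))
    rw [exp_neg (log 2), exp_log two_pos] at this
    rw [(e x hx).eq_of_nhds]
    linarith
  · rw [gam_congr rfl (e x hx) (e x hx), (e x hx).eq_of_nhds, gam_comp_sq (p1 x hx).1
      (F := fun s => 2 * exp (-s ^ 2)) ((hasDerivAt_pow 2 _).neg.exp.const_mul 2),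
      show 2 / (2 * exp (-p x ^ 2)) = exp (p x ^ 2) by rw [exp_neg]; field_simp, log_exp]
    have := (p1 x hx).2.2
    rw [div_pow, mul_pow, sq_sqrt hτ.le, le_div_iff₀ (by positivity)] at this
    simp only [Nat.cast_ofNat, Nat.add_one_sub_one, pow_one, Pi.neg_apply]
    nlinarith [mul_le_mul_of_nonneg_left this (sq_nonneg (exp (-p x ^ 2) * p x))]

end Vale.Agent.P216BG
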