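import Vale.Agent.P216E.Loc
import Mathlib.Analysis.SpecialFunctions.SmoothTransition
import Mathlib.Analysis.Calculus.Deriv.MeanValue

/-! P216BG/Init: the start of the entropy invariant at a ball -/

open MeasureTheory Set Filter
open scoped ContDiff Topology

namespace Vale.Agent.P216BG

open Vale.Agent.P216E

variable {X : Type} [TopologicalSpace X] [MeasurableSpace X]

lemma st_mul {F : Flo X} (H : F.Ok) {w z : ℝ → X → ℝ} (hw : w ∈ F.ST) (hz : z ∈ F.ST) :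
    (fun t x => w t x * z t x) ∈ F.ST := by
  have s : ∀ c : ℝ, ∀ y ∈ F.ST, (fun t x => c * y t x) ∈ F.ST := fun c y hy =>
    H.comp _ hy (fun r => c * r) fun _ _ _ _ => by fun_prop
  have q : ∀ y ∈ F.ST, (fun t x => y t x ^ 2) ∈ F.ST := fun y hy =>
    H.comp _ hy (fun r => r ^ 2) fun _ _ _ _ => by fun_prop
  convert H.add _ (s (1 / 4) _ (q _ (H.add _ hw _ hz))) _
    (s (-1 / 4) _ (q _ (H.add _ hw _ (s (-1) _ hz)))) using 3
  ring

variable {T : Tri X} {f h : X → ℝ}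

lemma int_ind (H : T.Ok) (hf : ContinuousOn f T.U) (hh : ContinuousOn h T.U) {B : Set X}
    (hB : MeasurableSet B) {c : ℝ} (e1 : ∀ x ∈ T.U, x ∈ B → f x ≤ h x + c)
    (e2 : ∀ x ∈ T.U, x ∉ B → f x ≤ h x) : ∫ x, f x ∂T.μ ≤ ∫ x, h x ∂T.μ + c * T.μ.real B := by
  have i := (H.int (fun _ => c) continuousOn_const).indicator hB
  rw [mul_comm, ← smul_eq_mul, ← integral_indicator_const c hB, ← integral_add (H.int _ hh) i]
  refine integral_mono_ae (H.int _ hf) ((H.int _ hh).add i) (H.ae.mono fun x hx => ?_)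
  by_cases hx' : x ∈ B
  · simpa [hx'] using e1 x hx hx'
  · simpa [hx'] using e2 x hx hx'

lemma green0 (H : T.Ok) (hf : f ∈ T.S) (hh : h ∈ T.S) :
    ∫ x, (f x * T.L h x + T.Γ f h x) ∂T.μ = 0 := by
  rw [H.int_add (H.cont _ (H.mul hf (H.LS _ hh))) (H.cont _ (H.ΓS _ hf _ hh)), H.green _ hf _ hh,
    neg_add_cancel]

/-- a short time of heat flow -/
lemma heat_step (H : T.Ok) (hH : T.Heat) {q : X → ℝ} (hq : q ∈ T.S) (q0 : ∀ x ∈ T.U, 0 ≤ q x)
    (hf : f ∈ T.S) {s e : ℝ} (hs : 0 < s) (he : ∫ x, (T.Γ f f x + q x * f x ^ 2) ∂T.μ ≤ e) :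
    ∃ u ∈ T.S, ∫ x, (T.Γ u u x + q x * u x ^ 2) ∂T.μ ≤ e ∧
      2 * s * ∫ x, (T.L u x - q x * u x) ^ 2 ∂T.μ ≤ e ∧ 2 * ∫ x, (u x - f x) ^ 2 ∂T.μ ≤ s * e := by
  obtain ⟨ST, O, hΓ, hw⟩ := hH s hs
  obtain ⟨w, hw, w0, wt⟩ := hw q hq f hf
  have S := O.slice w hw
  have cq := H.cont _ hq
  have cf := H.cont _ hf
  have m1 := O.add _ (O.ΓST _ hw _ hw) _ (st_mul O (O.stat _ hq)
    (O.comp _ hw (fun r => r ^ 2) fun _ _ _ _ => by fun_prop))
  have m2 := O.comp _ (O.add _ hw _ (O.stat _ (H.smul (-1) hf))) (fun r => r ^ 2)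
    fun _ _ _ _ => by fun_prop
  have d1 : ∀ t ∈ Ioo 0 s, HasDerivAt (fun t => ∫ x, (T.Γ (w t) (w t) x + q x * w t x ^ 2) ∂T.μ)
      (-2 * ∫ x, (T.L (w t) x - q x * w t x) ^ 2 ∂T.μ) t := fun t ht => by
    have St := S t (Ioo_subset_Icc_self ht)
    have Sd := O.dS w hw t ht
    have g := green0 H Sd St
    have c1 := H.cont _ St
    have c2 := H.cont _ (H.LS _ St)
    have c3 := H.cont _ Sd
    have c4 := H.cont _ (H.ΓS _ Sd _ St)
    refine (O.dint _ m1 t ht).congr_deriv ?_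
    rw [← add_zero (-2 * _), ← mul_eq_zero_of_right (2 : ℝ) g, ← integral_const_mul,
      ← integral_const_mul, ← H.int_add (by fun_prop) (by fun_prop)]
    refine H.int_congr fun x hx => ?_
    have := ((hΓ w hw t ht x hx).add (((O.diff w hw t ht x hx).hasDerivAt.pow 2).const_mul
      (q x))).deriv
    simp only [zero_mul, sub_zero]
    refine this.trans ?_
    rw [H.Γ_comm _ St _ Sd x hx, wt t ht x hx]
    simp
    ring
  have e0 : ∫ x, (T.Γ (w 0) (w 0) x + q x * w 0 x ^ 2) ∂T.μ ≤ e :=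
    (H.int_congr fun x hx => by
      have S0 := S 0 ⟨le_rfl, hs.le⟩
      rw [H.Γ_congr _ _ _ w0 hx, H.Γ_comm _ hf _ S0 x hx, H.Γ_congr _ _ _ w0 hx, w0 hx]).trans_le he
  have c1 := O.cint _ m1
  obtain ⟨t, ht, h1⟩ := exists_hasDerivAt_eq_slope _ _ hs c1 d1
  have ht' := Ioo_subset_Icc_self ht
  have St := S t ht'
  have p : ∀ g ∈ T.S, 0 ≤ ∫ x, (T.Γ g g x + q x * g x ^ 2) ∂T.μ := fun g hg =>
    H.int_nonneg fun x hx => add_nonneg (H.Γ_nonneg _ hg x hx) (mul_nonneg (q0 x hx) (sq_nonneg _))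
  refine ⟨w t, St, le_trans ?_ e0, ?_, ?_⟩
  · refine antitoneOn_of_deriv_nonpos (convex_Icc 0 s) c1
      (fun r hr => (d1 r (by simpa using hr)).differentiableAt.differentiableWithinAt)
      (fun r hr => ?_) ⟨le_rfl, hs.le⟩ ht' ht'.1
    rw [(d1 r (by simpa using hr)).deriv]
    exact mul_nonpos_of_nonpos_of_nonneg (by norm_num) (integral_nonneg fun x => sq_nonneg _)
  · rw [sub_zero, eq_div_iff hs.ne'] at h1
    linarith [p _ (S s ⟨hs.le, le_rfl⟩)]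
  have h2 := (convex_Icc 0 s).image_sub_le_mul_sub_of_deriv_le (C := e / 2) (O.cint _ m2)
    (fun r hr => (O.dint _ m2 r (by simpa using hr)).differentiableAt.differentiableWithinAt)
    (fun r hr => ?_) 0 ⟨le_rfl, hs.le⟩ t ht' ht'.1
  · rw [H.int_congr (f := fun x => (w 0 x + -1 * f x) ^ 2) (h := fun _ => 0)
      fun x hx => by simp [w0 hx]] at h2
    simp only [neg_one_mul, ← sub_eq_add_neg, integral_zero, sub_zero] at h2
    nlinarith [(p f hf).trans he, ht.2]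
  have hr' : r ∈ Ioo 0 s := by simpa using hr
  have Sr := S r (Ioo_subset_Icc_self hr')
  have c1 := H.cont _ Sr
  have c2 := H.cont _ (H.LS _ Sr)
  have c3 := H.cont _ (H.ΓS _ Sr _ Sr)
  have c4 := H.cont _ (H.ΓS _ hf _ Sr)
  have c5 := H.cont _ (H.ΓS _ hf _ hf)
  rw [(O.dint _ m2 r hr').deriv, H.int_congr (h := fun x => 2 * (w r x - f x) *
    (T.L (w r) x - q x * w r x)) fun x hx => by
      have := (((O.diff w hw r hr' x hx).hasDerivAt.add_const (-1 * f x)).pow 2).deriv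
      simp only [zero_mul, sub_zero]
      refine this.trans ?_
      rw [wt r hr' x hx]
      simp [sub_eq_add_neg]]
  refine (H.int_mono (h := fun x => 1 / 2 * (T.Γ f f x + q x * f x ^ 2) +
    (2 * (w r x * T.L (w r) x + T.Γ (w r) (w r) x) - 2 * (f x * T.L (w r) x + T.Γ f (w r) x)))
    (by fun_prop) (by fun_prop) fun x hx => ?_).trans ?_
  · nlinarith [H.young 2 hf Sr hx, mul_nonneg (q0 x hx) (sq_nonneg (f x - 2 * w r x))]
  rw [H.int_add (by fun_prop) (by fun_prop), H.int_sub (by fun_prop) (by fun_prop),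
    integral_const_mul, integral_const_mul, integral_const_mul, green0 H Sr Sr, green0 H hf Sr]
  linarith

lemma exists_F : ∃ (M : ℝ) (F : ℝ → ℝ), 0 ≤ M ∧ ContDiff ℝ ∞ F ∧ (∀ y, 0 ≤ F y ∧ F y ≤ 1) ∧
    (∀ y ≤ 1 / 4, F y = 0) ∧ (∀ y, 3 / 4 ≤ y → F y = 1) ∧
    ∀ y, |deriv F y| ≤ M ∧ |deriv (deriv F) y| ≤ M := by
  let F : ℝ → ℝ := fun y => Real.smoothTransition (2 * y - 1 / 2)
  have hF : ContDiff ℝ ∞ F := Real.smoothTransition.contDiff.comp (by fun_prop)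
  have h0 : ∀ y ≤ 1 / 4, F y = 0 := fun y hy => Real.smoothTransition.zero_of_nonpos (by linarith)
  have h1 : ∀ y, 3 / 4 ≤ y → F y = 1 := fun y hy =>
    Real.smoothTransition.one_of_one_le (by linarith)
  have d1 := (contDiff_infty_iff_deriv.1 hF).2
  have d2 := (contDiff_infty_iff_deriv.1 d1).2
  obtain ⟨M, hM⟩ := (isCompact_Icc (a := (0 : ℝ)) (b := 1)).exists_bound_of_continuousOn
    (d1.continuous.prodMk d2.continuous).continuousOn
  have M0 := (norm_nonneg _).trans (hM 0 (by simp))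
  refine ⟨M, F, M0, hF, fun y => ⟨Real.smoothTransition.nonneg _, Real.smoothTransition.le_one _⟩,
    h0, h1, fun y => ?_⟩
  by_cases hy : y ∈ Icc (0 : ℝ) 1
  · exact norm_prod_le_iff.1 (hM y hy)
  have : deriv F =ᶠ[𝓝 y] fun _ => 0 := by
    rcases not_and_or.1 hy with h | h
    · have : F =ᶠ[𝓝 y] fun _ => 0 := by
        filter_upwards [Iio_mem_nhds (not_le.1 h)] with z hz using h0 z (by linarith [hz.out])
      simpa using this.deriv
    · have : F =ᶠ[𝓝 y] fun _ => 1 := by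
        filter_upwards [Ioi_mem_nhds (not_le.1 h)] with z hz using h1 z (by linarith [hz.out])
      simpa using this.deriv
  rw [this.self_of_nhds, this.deriv_eq]
  simpa using M0

lemma pt_le {τ M F a b z q u G R : ℝ} (hτ : 0 < τ) (F0 : 0 ≤ F) (F1 : F ≤ 1) (hu : F ≤ 4 * |u|)
    (ha : |a| ≤ M) (hb : |b| ≤ M) (hq : 0 ≤ q) (hG : 0 ≤ G) (hR : R ≤ 4 * q) :
    τ * (-4 * F * (a * (z + q * u) + b * G) + R * F ^ 2) ≤
      2 * M * F ^ 2 + 2 * M * τ ^ 2 * z ^ 2 + (16 * M + 64) * τ * (G + q * u ^ 2) := by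
  have M0 := (abs_nonneg _).trans ha
  have h1 : -(a * (F * (τ * z))) ≤ M * ((F ^ 2 + (τ * z) ^ 2) / 2) :=
    (neg_le_abs _).trans (by
      rw [abs_mul]
      exact mul_le_mul ha (abs_le.2 ⟨by nlinarith [sq_nonneg (F + τ * z)],
        by nlinarith [sq_nonneg (F - τ * z)]⟩) (abs_nonneg _) M0)
  have h2 : -(a * (F * u)) ≤ M * (4 * u ^ 2) := (neg_le_abs _).trans (by
    rw [abs_mul, abs_mul, abs_of_nonneg F0, ← sq_abs u]
    exact mul_le_mul ha (by nlinarith [abs_nonneg u]) (by positivity) M0)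
  have h3 : -(b * F) ≤ M := (neg_le_abs _).trans (by
    rw [abs_mul, abs_of_nonneg F0]; nlinarith [abs_nonneg b])
  have h4 : F ^ 2 ≤ 16 * u ^ 2 := by rw [← sq_abs u]; nlinarith [abs_nonneg u]
  have h5 := mul_le_mul_of_nonneg_left h2 (mul_nonneg hτ.le hq)
  have h6 := mul_le_mul_of_nonneg_left h3 (mul_nonneg hτ.le hG)
  have h7 := mul_le_mul_of_nonneg_left h4 (mul_nonneg hτ.le hq)
  have h8 := mul_le_mul_of_nonneg_left hR (mul_nonneg hτ.le (sq_nonneg F))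
  nlinarith [mul_nonneg (mul_nonneg hτ.le hG) M0, mul_nonneg hτ.le hG]

lemma int_v_le (H : T.Ok) {M τ m N : ℝ} {F : ℝ → ℝ} {q u w : X → ℝ} {B₂ : Set X} (M0 : 0 ≤ M)
    (hF : ContDiff ℝ ∞ F) (F01 : ∀ y, 0 ≤ F y ∧ F y ≤ 1) (F0 : ∀ y ≤ 1 / 4, F y = 0)
    (FM : ∀ y, |deriv F y| ≤ M ∧ |deriv (deriv F) y| ≤ M) (m2 : MeasurableSet B₂) (hτ : 0 < τ)
    (hq : q ∈ T.S) (hu : u ∈ T.S) (hw : w ∈ T.S) (q1 : ∀ x, 0 ≤ q x ∧ T.R x ≤ 4 * q x)
    (N0 : 0 < N) (lg : Real.log N ≤ 3 / 2 * Real.log (4 * Real.pi * τ) + 3 + m)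
    (out : ∀ x ∈ T.U, x ∉ B₂ → -(F (u x) ^ 2 * Real.log (F (u x) ^ 2)) ≤ 16 * (u x - w x ^ 2) ^ 2) :
    ∫ x, max (T.v τ m (fun y => (√N)⁻¹ * F (u y)) x) 0 ∂T.μ ≤ N⁻¹ * (2 * M * ∫ x, F (u x) ^ 2 ∂T.μ +
      2 * M * τ ^ 2 * ∫ x, (T.L u x - q x * u x) ^ 2 ∂T.μ +
      (16 * M + 64) * τ * ∫ x, (T.Γ u u x + q x * u x ^ 2) ∂T.μ +
      ∫ x, 16 * (u x - w x ^ 2) ^ 2 ∂T.μ + T.μ.real B₂) := by
  have ea : (√N)⁻¹ ^ 2 = N⁻¹ := by rw [inv_pow, Real.sq_sqrt N0.le]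
  have c1 := H.cont _ (H.LS _ hu)
  have c2 := H.cont _ (H.ΓS _ hu _ hu)
  have cu := H.cont _ hu
  have cq := H.cont _ hq
  have cw := H.cont _ hw
  have hp := H.comp _ hu F fun _ _ => hF.contDiffAt
  have cp := hF.continuous
  have key : ∀ x ∈ T.U, ∀ c, 0 ≤ c → -(F (u x) ^ 2 * Real.log (F (u x) ^ 2)) ≤
      16 * (u x - w x ^ 2) ^ 2 + c → max (T.v τ m (fun y => (√N)⁻¹ * F (u y)) x) 0 ≤
      N⁻¹ * (2 * M * F (u x) ^ 2 + 2 * M * τ ^ 2 * (T.L u x - q x * u x) ^ 2 + (16 * M + 64) * τ *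
        (T.Γ u u x + q x * u x ^ 2) + 16 * (u x - w x ^ 2) ^ 2) + N⁻¹ * c := fun x hx c c0 h => by
    have G0 := H.Γ_nonneg _ hu x hx
    have q0 := (q1 x).1
    refine max_le ?_ (by positivity)
    have h1 := pt_le (z := T.L u x - q x * u x) (u := u x) hτ (F01 (u x)).1 (F01 (u x)).2 (by
      rcases le_total (u x) (1 / 4) with h | h
      · rw [F0 _ h]; positivity
      · linarith [le_abs_self (u x), (F01 (u x)).2]) (FM (u x)).1 (FM (u x)).2 q0 G0 (q1 x).2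
    rw [sub_add_cancel] at h1
    rw [Tri.v, H.L_smul _ hp hx, H.L_comp _ hu F (fun _ _ => hF.contDiffAt) x hx, log_mul_sq,
      mul_pow, ea, Real.log_inv, ← mul_add]
    refine le_of_eq_of_le (b := N⁻¹ * (τ * (-4 * F (u x) * (deriv F (u x) * T.L u x +
      deriv (deriv F) (u x) * T.Γ u u x) + T.R x * F (u x) ^ 2) -
      F (u x) ^ 2 * Real.log (F (u x) ^ 2) - (3 / 2 * Real.log (4 * Real.pi * τ) + 3 + m -
      Real.log N) * F (u x) ^ 2)) (by rw [← ea]; ring)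
      (mul_le_mul_of_nonneg_left ?_ (by positivity))
    linarith [mul_nonneg (sub_nonneg.2 lg) (sq_nonneg (F (u x)))]
  have cv := H.cont_v τ m (H.smul (√N)⁻¹ hp)
  refine (int_ind H (h := fun x => N⁻¹ * (2 * M * F (u x) ^ 2 + 2 * M * τ ^ 2 *
    (T.L u x - q x * u x) ^ 2 + (16 * M + 64) * τ * (T.Γ u u x + q x * u x ^ 2) +
    16 * (u x - w x ^ 2) ^ 2)) (cv.sup continuousOn_const) (by fun_prop) m2 (c := N⁻¹ * 1)
    (fun x hx _ => key x hx 1 zero_le_one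
      (by linarith [neg_mul_log_le (sq_nonneg (F (u x))), sq_nonneg (u x - w x ^ 2)]))
    fun x hx hx' => (key x hx 0 le_rfl ((out x hx hx').trans_eq (add_zero _).symm)).trans_eq
      (by rw [mul_zero, add_zero])).trans_eq ?_
  rw [integral_const_mul, H.int_add (by fun_prop) (by fun_prop),
    H.int_add (by fun_prop) (by fun_prop), H.int_add (by fun_prop) (by fun_prop),
    integral_const_mul (2 * M), integral_const_mul (2 * M * τ ^ 2),
    integral_const_mul ((16 * M + 64) * τ), mul_one, ← mul_add]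

theorem init (D : ℝ) (hD : 1 ≤ D) : ∃ b : ℝ, ∀ (X : Type) [TopologicalSpace X] [MeasurableSpace X]
    (T : Tri X) (w : X → ℝ) (B : Set (X → ℝ)) (B₁ B₂ : Set X) (τ m lam mA : ℝ), T.Ok → T.Heat →
    T.Wt B → w ∈ T.S → MeasurableSet B₁ → MeasurableSet B₂ → 0 < τ → 0 ≤ lam → 0 ≤ mA → mA ≤ 1 →
    B₁ ⊆ B₂ → B₂ ⊆ T.U → (∀ x ∈ B₁, w x = 1) → (∀ x ∈ T.U, x ∉ B₂ → w x = 0) →
    (∀ x ∈ T.U, 0 ≤ w x ∧ w x ≤ 1) → (∀ x ∈ T.U, τ * T.Γ w w x ≤ D) →
    (∀ x ∈ B₂, τ * T.R x ≤ 1) → 0 < T.μ.real B₂ → T.μ.real B₂ ≤ D * T.μ.real B₁ →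
    (∀ β ∈ B, ∀ x ∈ B₁, mA ≤ β x) →
    4 * T.μ.real B₂ ≤ Real.exp (3 / 2 * Real.log (4 * Real.pi * τ) + 3 + m) →
    T.Inv τ m lam (b - lam * mA / (8 * D)) B univ := by
  obtain ⟨M, F, M0, hF, F01, F0, F1, FM⟩ := exists_F
  refine ⟨D * (4 * M + 400 * M * D ^ 3 + (16 * M + 64) * (5 * D) + 2) + 1, ?_⟩
  intro X _ _ T w B B₁ B₂ τ m lam mA H hH hB hw m1 m2 hτ hl a0 a1 _ _ w1 w0 w01 hΓ hR hV hV1 hβ hc
  set V := T.μ.real B₂
  have sq1 : ∀ y : ℝ, |y| ≤ √(y ^ 2 + 1) ∧ √(y ^ 2 + 1) ≤ |y| + 1 := fun y =>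
    ⟨Real.abs_le_sqrt (by linarith), Real.sqrt_le_iff.2 ⟨by positivity, by
      nlinarith [sq_abs y, abs_nonneg y]⟩⟩
  obtain ⟨q, hq, q1⟩ : ∃ q ∈ T.S, ∀ x, 0 ≤ q x ∧ T.R x ≤ 4 * q x ∧ (x ∈ B₂ → τ * q x ≤ 1) := by
    refine ⟨_, H.comp _ H.RS (fun r => (τ * r + √((τ * r) ^ 2 + 1)) / (8 * τ)) fun x _ =>
      ((ContDiffAt.add (by fun_prop) (ContDiffAt.sqrt (by fun_prop) (by positivity))).div_const _),
      fun x => ?_⟩
    obtain ⟨s1, s2⟩ := sq1 (τ * T.R x)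
    refine ⟨div_nonneg (by linarith [neg_abs_le (τ * T.R x)]) (by positivity), ?_, fun hx => ?_⟩
    · rw [← mul_div_assoc, le_div_iff₀ (by positivity)]
      linarith [le_abs_self (τ * T.R x)]
    · rw [← mul_div_assoc, div_le_iff₀ (by positivity)]
      have := hR x hx
      cases abs_cases (τ * T.R x) <;> nlinarith
  have hf := H.pow 2 hw
  have cq := H.cont _ hq
  have cw := H.cont _ hw
  obtain ⟨u, hu, u1, u2, u3⟩ := heat_step H hH hq (fun x _ => (q1 x).1) hf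
    (s := τ / (80 * D ^ 2)) (e := 5 * D / τ * V) (by positivity) (by
      have e : ∀ x ∈ T.U, T.Γ (fun y => w y ^ 2) (fun y => w y ^ 2) x = 4 * w x ^ 2 * T.Γ w w x :=
        fun x hx => by rw [H.Γ_sq hw hf hx, H.Γ_comm _ hw _ hf x hx, H.Γ_sq hw hw hx]; ring
      have c := H.cont _ (H.ΓS _ hf _ hf)
      simpa using int_ind H (h := fun _ => 0) (by fun_prop) continuousOn_const m2
        (c := 5 * D / τ) (fun x hx hx' => by
          have h1 : w x ^ 2 ≤ 1 := pow_le_one₀ (w01 x hx).1 (w01 x hx).2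
          have h2 : (w x ^ 2) ^ 2 ≤ 1 := pow_le_one₀ (sq_nonneg _) h1
          rw [e x hx, zero_add, le_div_iff₀ hτ]
          nlinarith [mul_le_mul h1 (hΓ x hx) (mul_nonneg hτ.le (H.Γ_nonneg _ hw x hx)) zero_le_one,
            mul_le_mul h2 ((q1 x).2.2 hx') (mul_nonneg hτ.le (q1 x).1) zero_le_one])
        fun x hx hx' => by simp [e x hx, w0 x hx hx'])
  have D0 : 0 < D := by linarith
  replace u1 : τ * ∫ x, (T.Γ u u x + q x * u x ^ 2) ∂T.μ ≤ 5 * D * V :=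
    (mul_le_mul_of_nonneg_left u1 hτ.le).trans_eq (by field_simp)
  replace u2 : τ ^ 2 * ∫ x, (T.L u x - q x * u x) ^ 2 ∂T.μ ≤ 200 * D ^ 3 * V := by
    have := mul_le_mul_of_nonneg_left u2 (show 0 ≤ 40 * D ^ 2 * τ by positivity)
    exact le_of_eq_of_le (by field_simp; ring) (this.trans_eq (by field_simp; ring))
  replace u3 : D * ∫ x, 16 * (u x - w x ^ 2) ^ 2 ∂T.μ ≤ V / 2 := by
    have := mul_le_mul_of_nonneg_left u3 (show 0 ≤ 8 * D by positivity)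
    rw [integral_const_mul]
    exact le_of_eq_of_le (by ring) (this.trans_eq (by field_simp; ring))
  have cu := H.cont _ hu
  have hp := H.comp _ hu F fun _ _ => hF.contDiffAt
  have cp := hF.continuous
  have k0 : 0 ≤ ∫ x, 16 * (u x - w x ^ 2) ^ 2 ∂T.μ := integral_nonneg fun x => by positivity
  have out : ∀ x ∈ T.U, x ∉ B₂ → ∀ G : ℝ → ℝ, G 0 = 0 → (∀ y, G (F y) ≤ 1) →
      G (F (u x)) ≤ 16 * (u x - w x ^ 2) ^ 2 := fun x hx hx' G G0 G1 => by
    rw [w0 x hx hx']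
    rcases le_total (u x) (1 / 4) with h | h
    · rw [F0 _ h, G0]; positivity
    · nlinarith [G1 (u x)]
  have F2 : ∀ y, F y ^ 2 ≤ 1 := fun y => pow_le_one₀ (F01 y).1 (F01 y).2
  have n1 : ∫ x, F (u x) ^ 2 ∂T.μ ≤ 2 * V := by
    have := int_ind H (f := fun x => F (u x) ^ 2) (h := fun x => 16 * (u x - w x ^ 2) ^ 2)
      (by fun_prop) (by fun_prop) m2 (c := 1) (fun x _ _ => by nlinarith [F2 (u x)])
      fun x hx hx' => out x hx hx' (fun r => r ^ 2) (by simp) F2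
    nlinarith
  have n2 : ∀ a, 0 ≤ a → ∀ β, ContinuousOn β T.U → (∀ x ∈ T.U, 0 ≤ β x) → (∀ x ∈ B₁, a ≤ β x) →
      a * V ≤ 2 * D * ∫ x, β x * F (u x) ^ 2 ∂T.μ := fun a ha β cβ β0 β1 => by
    have := int_ind H (f := fun x => -a * (16 * (u x - w x ^ 2) ^ 2))
      (h := fun x => β x * F (u x) ^ 2) (by fun_prop) (by fun_prop) m1 (c := -a)
      (fun x _ hx => by
        have h1 : 1 - 16 * (u x - w x ^ 2) ^ 2 ≤ F (u x) ^ 2 := by
          rw [w1 x hx]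
          rcases le_total (3 / 4) (u x) with h | h
          · rw [F1 _ h]; nlinarith
          · nlinarith
        nlinarith [mul_le_mul_of_nonneg_left h1 ha,
          mul_le_mul_of_nonneg_right (β1 x hx) (sq_nonneg (F (u x)))])
      fun x hx _ => by
        nlinarith [mul_nonneg (β0 x hx) (sq_nonneg (F (u x))),
          mul_nonneg ha (sq_nonneg (u x - w x ^ 2))]
    rw [integral_const_mul] at this
    nlinarith [mul_le_mul_of_nonneg_left this D0.le, mul_le_mul_of_nonneg_left u3 ha,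
      mul_le_mul_of_nonneg_left hV1 ha]
  have n3 := n2 1 zero_le_one (fun _ => 1) continuousOn_const (by simp) (by simp)
  simp only [one_mul] at n3
  set N := 2 * ∫ x, F (u x) ^ 2 ∂T.μ with hN
  have N0 : 0 < N := by nlinarith
  have ea : (√N)⁻¹ ^ 2 = N⁻¹ := by rw [inv_pow, Real.sq_sqrt N0.le]
  refine ⟨_, H.smul (√N)⁻¹ hp, by simp, ?_,
    D * (4 * M + 400 * M * D ^ 3 + (16 * M + 64) * (5 * D) + 2) - lam * mA / (8 * D),
    by linarith, fun β hβ' => sub_le_sub ?_ ?_⟩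
  · simp only [mul_pow, ea]
    rw [integral_const_mul, inv_mul_lt_iff₀ N0]
    linarith
  · refine (int_v_le H M0 hF F01 F0 FM m2 hτ hq hu hw (fun x => ⟨(q1 x).1, (q1 x).2.1⟩) N0
      ((Real.log_le_iff_le_exp N0).2 (by linarith)) fun x hx hx' => out x hx hx'
        (fun r => -(r ^ 2 * Real.log (r ^ 2))) (by simp)
        fun y => neg_mul_log_le (sq_nonneg _)).trans ?_
    rw [inv_mul_le_iff₀ N0]
    have h1 : 0 ≤ 4 * M + 400 * M * D ^ 3 + (16 * M + 64) * (5 * D) + 2 := by positivity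
    have h2 := mul_le_mul_of_nonneg_left (show V ≤ N * D by linarith) h1
    have h3 := le_mul_of_one_le_left k0 hD
    linarith [mul_le_mul_of_nonneg_left n1 M0, mul_le_mul_of_nonneg_left u2 M0,
      mul_le_mul_of_nonneg_left u1 (show 0 ≤ 16 * M + 64 by positivity)]
  · have h1 : mA * V ≤ 2 * D * ∫ x, β x * F (u x) ^ 2 ∂T.μ := by
      rcases hβ' with rfl | hβ'
      · exact n2 mA a0 _ continuousOn_const (by simp) fun _ _ => a1
      · exact n2 mA a0 β (hB β hβ').1 (fun x hx => ((hB β hβ').2 x hx).1) (hβ β hβ')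
    simp only [mul_pow, ea, mul_left_comm (β _)]
    rw [integral_const_mul, mul_div_assoc]
    refine mul_le_mul_of_nonneg_left ?_ hl
    rw [div_le_iff₀ (by positivity), mul_assoc, le_inv_mul_iff₀ N0]
    nlinarith [mul_le_mul_of_nonneg_left n1 a0]

end Vale.Agent.P216BG
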