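import Vale.Agent.P216BG.Seg
import Vale.Agent.P216HV.Area
import Vale.Agent.P216HV.Hv
import Vale.Agent.P216L.Cmp

/-!
# P216BG/Mcp: measure contraction and the Bishop-Gromov comparison
-/

open scoped Manifold ContDiff Topology ENNReal
open Set Filter MeasureTheory
open Vale.Agent.P216R Vale.Agent.P216CP Vale.Agent.P219.RG

set_option maxSynthPendingDepth 3

noncomputable section

namespace Vale.Agent.P216BG

variable {E : Type} [NormedAddCommGroup E] [NormedSpace ℝ E] [FiniteDimensional ℝ E]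
  [MeasurableSpace E] [BorelSpace E]
  {M : Type} [TopologicalSpace M] [ChartedSpace E M] [IsManifold 𝓘(ℝ, E) ∞ M]
  {g : Ten E M} {U : Set M} {x : M}

theorem meas_Mn (hg : Met g U) (hH : Hs U) : MeasurableSet (Mn g U x) := by
  have := meas_inter_preimage (isOpen_Dom hg hH).measurableSet
    ((continuousOn_ed_expo hg hH x (x := x)).prodMk (ENNReal.continuous_ofReal.comp
      (continuous_nr (g x))).continuousOn) isClosed_diagonal.measurableSet
  exact this

theorem lintegral_smul_set {S : Set E} (hS : MeasurableSet S) {l : ℝ} (hl : 0 < l)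
    (f : E → ℝ≥0∞) : ∫⁻ z in (fun v => l • v) '' S, f z ∂haar E =
      ∫⁻ z in S, ENNReal.ofReal (l ^ Module.finrank ℝ E) * f (l • z) ∂haar E := by
  rw [lintegral_image_eq_lintegral_abs_det_fderiv_mul (haar E) hS
    (f := fun v => l • v) (f' := fun _ => l • ContinuousLinearMap.id ℝ E)
    (fun v _ => ((hasFDerivAt_id v).const_smul l).hasFDerivWithinAt)
    (smul_right_injective E hl.ne').injOn]
  simp [ContinuousLinearMap.det, LinearMap.det_smul, abs_of_pos hl]

theorem vol_singleton [MeasurableSpace M] [BorelSpace M] (h : 0 < Module.finrank ℝ E)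
    (g : Ten E M) (x : M) : vol g {x} = 0 := by
  have := Module.nontrivial_of_finrank_pos h
  refine le_antisymm ((P216HV.vol_le_chart g (b := x) (by simp)).trans_eq ?_) zero_le
  rw [image_singleton]
  exact setLIntegral_measure_zero _ _ (measure_singleton _)

variable (E) in
/-- measure contraction -/
theorem mcp : MCP E := by
  intro M _ _ _ _ _ g U x R l c m A A' hg hH hc l0 l1 c0 hm hA mA h1 h2
  have hS := P216L.supl E
  set S := (Mn g U x \ {0}) ∩ expo g U x ⁻¹' A with hSd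
  have mS : MeasurableSet S := meas_inter_preimage
    ((meas_Mn hg hH).diff (measurableSet_singleton 0))
    (fun w hw => (continuousAt_expo hg hH hw.1.1).continuousWithinAt) mA
  have a1 : A \ {x} ⊆ expo g U x '' S := fun y hy => by
    obtain ⟨v, v1, v2, -⟩ := exists_cut hg hH hc (hA hy.1)
    refine ⟨v, ⟨⟨v1, ?_⟩, by rw [mem_preimage, v2]; exact hy.1⟩, v2⟩
    rintro rfl
    exact hy.2 (v2.symm.trans (expo_zero hg hH (mem_of_Life v1.1)))
  have a2 : ∀ v ∈ S, ∃ L u, 0 < L ∧ L < R ∧ g x u u = 1 ∧ v = L • u ∧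
      expo g U x (l • v) ∈ A' ∧ c ≤ l * Real.exp (-∫ t in l * L..L, m t) ∧
      c * jac g U x v ≤ l ^ Module.finrank ℝ E * jac g U x (l • v) := by
    rintro v ⟨⟨v1, v2⟩, v3⟩
    obtain ⟨p, hu, e⟩ := unit_dir hg (mem_of_Life v1.1) v2
    have d : dd g U x (expo g U x v) = √(g x v v) := dd_eq_of v1.2 p.le
    have hR := d ▸ dd_lt_of_bl (hA v3)
    have hc' := h2 _ v3 fun e => by simp [e, dd_self, p.ne] at d
    rw [d] at hc'
    generalize √(g x v v) = L at *
    generalize L⁻¹ • v = u at *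
    subst e
    obtain ⟨b1, b2⟩ := minGeo_of_Mn hg hH hu p.le v1
    have lL : l * L ≤ L := mul_le_of_le_one_left p.le l1
    have l0' := mul_pos l0 p
    obtain ⟨b3, b4⟩ := h1 _ L b2 (ray_zero hg hH) (expo_smul hg hH b1 ▸ v3)
    have b5 := jac_le hS hg hH hc hu v1 hR.le l0' lL
      (hm.mono fun t ht => ⟨l0'.trans_le ht.1, ht.2.trans_lt hR⟩)
      fun t ht => b4 t ⟨ht.1.le, ht.2⟩ (l0'.trans ht.1)
    refine ⟨L, u, p, hR, hu, rfl, ?_, hc', ?_⟩
    · rwa [smul_smul, expo_smul hg hH (Icc_subset_Life b1 ⟨l0'.le, lL⟩)]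
    refine (mul_le_mul_of_nonneg_right hc' (jac_nonneg _)).trans ?_
    rw [Real.exp_neg, smul_smul, mul_right_comm, ← div_eq_mul_inv, div_le_iff₀ (Real.exp_pos _)]
    refine le_of_mul_le_mul_left ?_ (mul_pos p (pow_pos p (Module.finrank ℝ E)))
    rw [mul_pow] at b5
    linarith
  rcases l1.eq_or_lt with rfl | l1
  · rcases S.eq_empty_or_nonempty with e | ⟨v, hv⟩
    · simp [subset_eq_empty a1 (by simp [e])]
    obtain ⟨L, u, -, -, -, -, -, b, -⟩ := a2 v hv
    refine (mul_le_of_le_one_left' (by simpa using b)).trans (measure_mono (a1.trans ?_))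
    rintro _ ⟨v, hv, rfl⟩
    obtain ⟨L, u, -, -, -, -, b, -⟩ := a2 v hv
    rwa [one_smul] at b
  have a3 : ∀ v ∈ S, l • v ∈ Mn g U x := fun v hv => Cut.smul hg hH hv.1.1 ⟨l0.le, l1.le⟩
  have a4 : InjOn (expo g U x) ((fun v => l • v) '' S) := by
    rintro _ ⟨v, hv, rfl⟩ _ ⟨w, hw, rfl⟩ e
    exact Cut.uniq hg hH hw.1.1 ⟨l0.le, l1⟩ (a3 v hv) e
  have md : ∀ w ∈ Mn g U x, MD E (expo g U x) w := fun w hw =>
    (contMDiffAt_expo hg hH hw.1).mdifferentiableAt (by simp)
  calc ENNReal.ofReal c * vol g (A \ {x})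
      ≤ ENNReal.ofReal c * ∫⁻ z in S, ENNReal.ofReal (jac g U x z) ∂haar E := by
        gcongr
        exact (measure_mono a1).trans (P216HV.param_le hg mS (fun w hw => md w hw.1.1)
          fun w hw => expo_mem hg hH hw.1.1.1)
    _ ≤ ∫⁻ z in S, ENNReal.ofReal (l ^ Module.finrank ℝ E) *
          ENNReal.ofReal (jac g U x (l • z)) ∂haar E := by
        rw [← lintegral_const_mul' _ _ ENNReal.ofReal_ne_top]
        refine setLIntegral_mono' mS fun v hv => ?_
        obtain ⟨L, u, -, -, -, -, -, -, b⟩ := a2 v hv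
        rw [← ENNReal.ofReal_mul c0, ← ENNReal.ofReal_mul (by positivity)]
        exact ENNReal.ofReal_le_ofReal b
    _ = vol g (expo g U x '' ((fun v => l • v) '' S)) := by
        rw [P216HV.param_eq g (S := (fun v => l • v) '' S) (mS.const_smul₀ l)
          (by rintro _ ⟨v, hv, rfl⟩; exact md _ (a3 v hv)) a4, lintegral_smul_set mS l0]
        rfl
    _ ≤ vol g A' := measure_mono (by
        rintro _ ⟨_, ⟨v, hv, rfl⟩, rfl⟩
        obtain ⟨L, u, -, -, -, -, b, -⟩ := a2 v hv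
        exact b)

variable (E) in
/-- the Bishop-Gromov comparison -/
theorem bg : BG E := by
  intro M _ _ _ _ _ g U x R k hg hH hc hR hk hn hRic
  obtain ⟨n, en⟩ := Nat.exists_eq_add_one_of_ne_zero hn.ne'
  have h1 : ∀ (l : ℝ) (A A' : Set M), 0 < l → l ≤ 1 → A ⊆ bl g U x R → MeasurableSet A →
      (∀ γ L, MinGeo g U γ L → γ 0 = x → γ L ∈ A → γ (l * L) ∈ A') →
      ENNReal.ofReal (l * (sn k (l * R) / sn k R) ^ (Module.finrank ℝ E - 1)) * vol g A
        ≤ vol g A' := fun l A A' l0 l1 hA mA h => by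
    rw [← measure_sdiff_null (s := A) (vol_singleton hn g x)]
    refine mcp E M g U x R l _ (fun t => ((Module.finrank ℝ E : ℝ) - 1) * ct k t) A A' hg hH hc
      l0 l1 (mul_nonneg l0.le (pow_nonneg (div_pos (sn_pos hk (mul_pos l0 hR))
        (sn_pos hk hR)).le _))
      (continuousOn_const.mul ((continuousOn_ct hk).mono Ioo_subset_Ioi_self)) hA mA
      (fun γ L a b c => ⟨h γ L a b c, fun t ht t0 => ?_⟩) fun y hy hne => ?_
    · obtain ⟨f, f1, -, f2⟩ := P216L.supl E M g U γ t k hg hH (minGeo_mono a t0.le ht.2.le) t0 hk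
        fun s hs => by
          have s1 : s ∈ Icc 0 L := ⟨hs.1, hs.2.trans ht.2.le⟩
          have := hRic (γ s) (b ▸ (minGeo_ed' a s1).trans_lt (((ENNReal.ofReal_le_ofReal
            s1.2).trans_eq (minGeo_ed a).symm).trans_lt (b ▸ hA c))) (vel E γ s)
          rwa [minGeo_sp a s1, mul_one] at this
      exact ⟨f, b ▸ f1, f2⟩
    have d0 := hg.dd_pos hH (ne_top_of_bl (hA hy)) hne.symm
    have d1 := dd_lt_of_bl (hA hy)
    generalize dd g U x y = d at d0 d1
    have p := sn_pos hk d0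
    have q := sn_pos hk (mul_pos l0 d0)
    rw [intervalIntegral.integral_const_mul, integral_ct hk (mul_pos l0 d0)
      (mul_le_of_le_one_left d0.le l1), en, Nat.add_sub_cancel, Nat.cast_add_one, add_sub_cancel_right,
      ← mul_neg, neg_sub, ← Real.log_div q.ne' p.ne', Real.exp_nat_mul,
      Real.exp_log (div_pos q p)]
    exact mul_le_mul_of_nonneg_left (pow_le_pow_left₀ (div_pos (sn_pos hk (mul_pos l0 hR))
      (sn_pos hk hR)).le (sn_ratio hk l0 l1 d0 d1.le) n) l0.le
  have h2 : ∀ r, 0 < r → r ≤ R →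
      ENNReal.ofReal (r / R * (sn k r / sn k R) ^ (Module.finrank ℝ E - 1)) * vol g (bl g U x R)
        ≤ vol g (bl g U x r) := fun r r0 r1 => by
    have := h1 (r / R) _ (bl g U x r) (div_pos r0 hR) ((div_le_one hR).2 r1) Subset.rfl
      (hg.isOpen_bl x R).measurableSet fun γ L a b c => by
        have L1 : L < R := (dd_eq_of (b ▸ minGeo_ed a) a.nonneg) ▸ dd_lt_of_bl c
        refine (b ▸ minGeo_ed' a ⟨mul_nonneg (div_pos r0 hR).le a.nonneg, mul_le_of_le_one_left
          a.nonneg ((div_le_one hR).2 r1)⟩).trans_lt ((ENNReal.ofReal_lt_ofReal_iff r0).2 ?_)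
        rw [div_mul_eq_mul_div, div_lt_iff₀ hR]
        gcongr
    rwa [div_mul_cancel₀ _ hR.ne'] at this
  refine ⟨h1, h2, ?_⟩
  by_cases hx : x ∈ U
  swap
  · rw [show bl g U x R = ∅ from eq_empty_of_forall_notMem fun y hy => hx (mem_of_bl hy).1]
    simp
  set w := volume (Metric.ball (0 : EuclideanSpace ℝ (Fin (Module.finrank ℝ E))) 1)
  have hw : w ≠ ⊤ := measure_ball_lt_top.ne
  have sR := sn_pos hk hR
  have t : Tendsto (fun l : ℝ => ENNReal.ofReal (l ^ (n + 2) * (R * sn k R ^ n)) * w) (𝓝[>] 1)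
      (𝓝 (ENNReal.ofReal (1 ^ (n + 2) * (R * sn k R ^ n)) * w)) :=
    ENNReal.Tendsto.mul_const ((ENNReal.continuous_ofReal.comp (by fun_prop)).continuousAt.tendsto.mono_left
      nhdsWithin_le_nhds) (.inr hw)
  rw [one_pow, one_mul] at t
  rw [en, Nat.add_sub_cancel] at h2
  conv_rhs => rw [en, Nat.add_sub_cancel]
  refine ge_of_tendsto t (eventually_nhdsWithin_of_forall fun l (hl : 1 < l) => ?_)
  obtain ⟨s, s0, hs⟩ := P216HV.ball_le (isVol_vol g) hg hH isCompact_singleton
    (singleton_subset_iff.2 hx) hl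
  have r0 : 0 < min s R := lt_min s0 hR
  have b := (h2 _ r0 (min_le_right _ _)).trans (hs x rfl _ (min_le_left _ _))
  generalize min s R = r at r0 b
  have l0 : 0 < l := by linarith
  have p := sn_pos hk r0
  rw [Measure.addHaar_ball_of_pos _ _ (by positivity), finrank_euclideanSpace_fin, ← mul_assoc,
    ← ENNReal.ofReal_mul l0.le] at b
  have a0 : 0 < r / R * (sn k r / sn k R) ^ n := by positivity
  refine (ENNReal.mul_le_mul_iff_right (ENNReal.ofReal_pos.2 a0).ne' ENNReal.ofReal_ne_top).1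
    (b.trans ?_)
  rw [← mul_assoc, ← ENNReal.ofReal_mul a0.le]
  refine mul_le_mul_left (ENNReal.ofReal_le_ofReal ?_) _
  have := pow_le_pow_left₀ r0.le (le_sn hk r0.le) n
  rw [en, div_pow]
  field_simp
  exact le_of_eq_of_le (by ring) ((mul_le_mul_of_nonneg_left this
    (mul_pos (pow_pos l0 (n + 2)) r0).le).trans_eq (by ring))

variable [MeasurableSpace M] [BorelSpace M] {R r : ℝ}

/-- nonnegative Ricci curvature: volume ratios decrease -/
theorem bg0 (hg : Met g U) (hH : Hs U) (hc : Cpt g U x R) (hn : 0 < Module.finrank ℝ E)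
    (h : ∀ y ∈ bl g U x R, ∀ v, 0 ≤ Ric g y v v) (h0 : 0 < r) (h1 : r ≤ R) :
    ENNReal.ofReal ((r / R) ^ Module.finrank ℝ E) * vol g (bl g U x R) ≤ vol g (bl g U x r) := by
  have := (bg E M g U x R 0 hg hH hc (h0.trans_le h1) le_rfl hn (by simpa using h)).2.1 r h0 h1
  rwa [sn, sn, if_pos rfl, if_pos rfl, ← pow_succ', Nat.sub_add_cancel hn] at this

/-- nonnegative Ricci curvature: Euclidean upper bound -/
theorem bg0_le (hg : Met g U) (hH : Hs U) (hc : Cpt g U x R) (hn : 0 < Module.finrank ℝ E)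
    (h : ∀ y ∈ bl g U x R, ∀ v, 0 ≤ Ric g y v v) (h0 : 0 < R) :
    vol g (bl g U x R) ≤ ENNReal.ofReal (R ^ Module.finrank ℝ E) *
      volume (Metric.ball (0 : EuclideanSpace ℝ (Fin (Module.finrank ℝ E))) 1) := by
  have := (bg E M g U x R 0 hg hH hc h0 le_rfl hn (by simpa using h)).2.2
  rwa [sn, if_pos rfl, ← pow_succ', Nat.sub_add_cancel hn] at this

end Vale.Agent.P216BG
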