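import Vale.Agent.P216BG.Mcp
import Vale.Agent.P216FA.Plan

/-!
# P216BG/Np: segments without tripods and the volume of tubes
-/

open scoped Manifold ContDiff Topology ENNReal
open Set Filter MeasureTheory
open Vale.Agent.P216R Vale.Agent.P216CP Vale.Agent.P216FA Vale.Agent.P216BF

set_option maxSynthPendingDepth 3

noncomputable section

namespace Vale.Agent.P216BG

variable {M : Type} [TopologicalSpace M] [ChartedSpace E3 M] [IsManifold 𝓘(ℝ, E3) ∞ M]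
  {g : Ten E3 M} {U : Set M} {γ : ℝ → M} {l a b r : ℝ} {p x : M}

omit [IsManifold 𝓘(ℝ, E3) ∞ M] in
theorem minGeo_ne (h : MinGeo g U γ l) (ha : a ∈ Icc 0 l) (hb : b ∈ Icc 0 l) :
    ed g U (γ a) (γ b) ≠ ⊤ := h.min a ha b hb ▸ ENNReal.ofReal_ne_top

omit [IsManifold 𝓘(ℝ, E3) ∞ M] in
/-- a nearest point on a segment -/
theorem exists_near (h : MinGeo g U γ l) (ha : a ∈ Icc 0 l) (hp : ed g U (γ a) p ≠ ⊤) :
    ∃ u ∈ Icc 0 l, ∀ t ∈ Icc 0 l, dd g U (γ u) p ≤ dd g U (γ t) p :=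
  isCompact_Icc.exists_isMinOn ⟨a, ha⟩ (LipschitzOnWith.of_le_add
    (f := fun t => dd g U (γ t) p) fun s hs t ht => by
      linarith [dd_triangle (minGeo_ne h hs ht) (ed_ne_top_trans (minGeo_ne h ht ha) hp),
        minGeo_dd h hs ht, Real.dist_eq s t]).continuousOn

theorem np : NP := by
  intro X g U γ σ p l s u₀ R S hg hH hc h hs hp h0 h1 hT
  have R0 := pos_of_mem_bl hp
  have S0 := (hT u₀ ⟨by linarith, by linarith⟩).1
  have hu₀ : u₀ ∈ Icc 0 l := ⟨by linarith [S0.1, S0.2], by linarith [S0.1, S0.2]⟩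
  obtain ⟨p1, p2⟩ := mem_bl_iff.1 hp
  have f : ∀ t ∈ Icc 0 l, ed g U (γ t) p ≠ ⊤ := fun t ht =>
    ed_ne_top_trans (minGeo_ne h ht hu₀) p1
  obtain ⟨u, hu, hm⟩ := exists_near h hu₀ p1
  have hu' : u ∈ Icc (u₀ - 2 * R) (u₀ + 2 * R) := by
    have := dd_triangle (f u hu) (ed_comm.trans_ne p1)
    rw [minGeo_dd h hu hu₀, dd_comm (x := p)] at this
    have := abs_le.1 (this.trans (show _ ≤ 2 * R by linarith [hm u₀ hu₀]))
    exact ⟨by linarith, by linarith⟩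
  refine ⟨u, hu', mem_bl_iff.2 ⟨f u hu, not_le.1 fun hD => ?_⟩⟩
  obtain ⟨⟨σ0, σS⟩, T⟩ := hT u hu'
  obtain ⟨c, c1, c2, c3⟩ := exists_minGeo_cpl hg hH hc (f u hu)
  have hρ : 25 * σ u ∈ Icc 0 (dd g U (γ u) p) := ⟨by linarith, by linarith⟩
  have ha : u - 25 * σ u ∈ Icc 0 l := ⟨by linarith [hu'.1], by linarith [hu.2]⟩
  have hb : u + 25 * σ u ∈ Icc 0 l := ⟨by linarith [hu.1], by linarith [hu'.2]⟩
  have e1 := minGeo_dd c1 ⟨le_rfl, c1.nonneg⟩ hρ
  have e2 := minGeo_dd c1 hρ ⟨c1.nonneg, le_rfl⟩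
  have e3 := minGeo_ne c1 hρ ⟨c1.nonneg, le_rfl⟩
  rw [c2, abs_of_nonpos (by linarith)] at e1
  rw [c3, abs_of_nonpos (by linarith)] at e2
  rw [c3] at e3
  have k : ∀ t ∈ Icc 0 l, 25 * σ u ≤ dd g U (γ t) (c (25 * σ u)) := fun t ht => by
    linarith [hm t ht, dd_triangle (ed_ne_top_trans (f t ht) (ed_comm.trans_ne e3)) e3]
  have q : 0 ≤ σ u / (1 + s) := div_nonneg σ0.le (by linarith [hs.1])
  have := T (25 * σ u) ⟨by nlinarith [hs.2], by nlinarith [hs.2]⟩ _ (minGeo_mem h ha) _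
    (minGeo_mem h hb) _ (minGeo_mem c1 hρ)
    (by rw [minGeo_dd h hu ha, abs_of_nonneg (a := u - _) (by linarith)]; simpa using q)
    (by rw [minGeo_dd h hu hb, abs_of_nonpos (a := u - _) (by linarith)]; simpa using q)
    (by rw [e1]; simpa using q)
  rw [minGeo_dd h ha hb, abs_of_nonpos (by linarith)] at this
  have := k _ ha
  have := k _ hb
  have := mul_le_mul_of_nonneg_right hs.2 σ0.le
  rcases ‹_ ∨ _› with h | h | h <;> linarith

/-- Euclidean upper bound for the volume of balls if `sec ≥ 0` -/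
theorem vol_bl_le [MeasurableSpace M] [BorelSpace M] (hg : Met g U) (hH : Hs U) (hc : Cpt g U x r)
    (h : ∀ y ∈ bl g U x r, SecGe g y 0) (hr : 0 < r) :
    vol g (bl g U x r) ≤ ENNReal.ofReal (5 * r ^ 3) := by
  refine (bg0_le hg hH hc (by simp) (fun y hy v => by
    simpa using ricGe_of_sec hg (bl_subset hy) (h y hy) v) hr).trans ?_
  rw [P216HV.vol_ball3 P216HV.fr3, P216HV.fr3, ENNReal.ofReal_one, one_pow, one_mul,
    ← ENNReal.ofReal_mul (by positivity)]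
  exact ENNReal.ofReal_le_ofReal (by nlinarith [Real.pi_lt_d2, pow_pos hr 3])

theorem tv : TV := by
  refine ⟨10 * 31 ^ 3, by norm_num, fun X g U γ l K L A hN hT h hA K0 hL hK hl => ?_⟩
  have s0 := Real.sqrt_pos.2 K0
  obtain ⟨S, hS, S0, e⟩ : ∃ S, (√K)⁻¹ = S ∧ 0 < S ∧ S ^ 2 = K⁻¹ :=
    ⟨_, rfl, inv_pos.2 s0, by rw [inv_pow, Real.sq_sqrt K0.le]⟩
  rw [← div_le_iff₀ s0, div_eq_mul_inv, hS] at hl
  have hAS := mul_nonneg hA S0.le
  have z : (0 : ℝ) ∈ Icc 0 l := ⟨le_rfl, h.nonneg⟩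
  have z' : l ∈ Icc 0 l := ⟨h.nonneg, le_rfl⟩
  have a1 : bl g U (γ (l / 2)) (l / 10) ⊆
      ⋃ k ∈ Finset.range (⌊l / S⌋₊ + 1), bl g U (γ (k * S)) (31 * S) := fun p hp => by
    obtain ⟨u, hu, hp⟩ := np X g U γ (fun u => sg g (γ u)) p l 1 (l / 2) (l / 10) S hN.met hN.hs
      hN.cpl h ⟨zero_le_one, le_rfl⟩ hp (by linarith) (by linarith) fun u hu => by
        have u1 : u ∈ Icc 0 l := ⟨by linarith [hu.1], by linarith [hu.2]⟩
        have b0 : 0 < sg g (γ u) := inv_pos.2 (Real.sqrt_pos.2 (K0.trans_le (hK u u1)))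
        have b1 : sg g (γ u) ≤ S := hS ▸ inv_anti₀ s0 (Real.sqrt_le_sqrt (hK u u1))
        have b2 := mul_le_mul_of_nonneg_left b1 hA
        refine ⟨⟨b0, b1⟩, hT _ (minGeo_mem h u1) (hL.trans_le (hK u u1))
          ⟨_, minGeo_mem h z, _, minGeo_mem h z', ?_⟩⟩
        rw [minGeo_dd h u1 z, minGeo_dd h u1 z', minGeo_dd h z z', abs_of_nonneg (by linarith [u1.1]),
          abs_of_nonpos (by linarith [u1.2]), abs_of_nonpos (by linarith)]
        exact ⟨by linarith [hu.1], by linarith [hu.2], by linarith⟩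
    have u1 : u ∈ Icc 0 l := ⟨by linarith [hu.1], by linarith [hu.2]⟩
    have b1 : sg g (γ u) ≤ S := hS ▸ inv_anti₀ s0 (Real.sqrt_le_sqrt (hK u u1))
    have k1 := (le_div_iff₀ S0).1 (Nat.floor_le (div_nonneg u1.1 S0.le))
    have k2 := (div_lt_iff₀ S0).1 (Nat.lt_floor_add_one (u / S))
    have k3 : (⌊u / S⌋₊ : ℝ) * S ∈ Icc 0 l := ⟨by positivity, k1.trans u1.2⟩
    obtain ⟨p1, p2⟩ := mem_bl_iff.1 hp
    refine mem_biUnion (Finset.mem_coe.2 (Finset.mem_range.2 (Nat.lt_succ_of_le (Nat.floor_mono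
      (div_le_div_of_nonneg_right u1.2 S0.le))))) (mem_bl_iff.2
        ⟨ed_ne_top_trans (minGeo_ne h k3 u1) p1, ?_⟩)
    have := dd_triangle (minGeo_ne h k3 u1) p1
    rw [minGeo_dd h k3 u1, abs_of_nonpos (by linarith)] at this
    linarith
  have k1 := (le_div_iff₀ S0).1 (Nat.floor_le (div_nonneg h.nonneg S0.le))
  refine (measure_mono a1).trans ((measure_biUnion_finset_le _ _).trans ((Finset.sum_le_card_nsmul
    _ _ (ENNReal.ofReal (5 * (31 * S) ^ 3)) fun k hk => ?_).trans ?_))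
  · have : (k : ℝ) ≤ ⌊l / S⌋₊ := Nat.cast_le.2 (Nat.lt_succ_iff.1 (Finset.mem_range.1 hk))
    exact vol_bl_le hN.met hN.hs (hN.cpl.cpt (minGeo_mem h ⟨by positivity, by nlinarith⟩) _)
      (fun y hy => hN.sec y (bl_subset hy)) (by positivity)
  rw [Finset.card_range, nsmul_eq_mul, ← ENNReal.ofReal_natCast,
    ← ENNReal.ofReal_mul (by positivity), div_eq_mul_inv _ K, ← e]
  refine ENNReal.ofReal_le_ofReal ?_
  push_cast
  nlinarith [mul_le_mul_of_nonneg_left (show (⌊l / S⌋₊ + 1) * S ≤ 2 * l by linarith) (sq_nonneg S)]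

end Vale.Agent.P216BG
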