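import Vale.Agent.P216MP.LapG
import Vale.Agent.P210.R2.H934.Flat
import Vale.Agent.P216CP.Stm
import Vale.Agent.P216CP.NB
import Mathlib.Analysis.SpecialFunctions.Trigonometric.DerivHyp

/-!
# P216BG/Rad: the Laplacian of the radial function and one dimensional lemmas
-/

open scoped Manifold ContDiff Topology ENNReal
open Set Filter MeasureTheory
open Vale.Agent.P216R Vale.Agent.P216CP Vale.Agent.P219.RG
open Vale.Agent.P210.R2.H53 (gradG lapG dens)

set_option maxSynthPendingDepth 3

noncomputable section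

namespace Vale.Agent.P216BG

/-- a differential inequality `j' ≤ m j` integrates -/
theorem le_mul_exp {j j' m : ℝ → ℝ} {a b : ℝ} (hab : a ≤ b) (hc : ContinuousOn j (Icc a b))
    (hm : ContinuousOn m (Icc a b)) (hd : ∀ t ∈ Ioo a b, HasDerivAt j (j' t) t)
    (h : ∀ t ∈ Ioo a b, j' t ≤ m t * j t) : j b ≤ j a * Real.exp (∫ t in a..b, m t) := by
  have hi : IntervalIntegrable m volume a b := (hm.mono (uIcc_of_le hab).subset).intervalIntegrable
  have c1 : ContinuousOn (fun t => ∫ s in a..t, m s) (Icc a b) := by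
    have := intervalIntegral.continuousOn_primitive_interval' hi left_mem_uIcc
    rwa [uIcc_of_le hab] at this
  have d1 : ∀ t ∈ Ioo a b, HasDerivAt (fun t => j t * Real.exp (-∫ s in a..t, m s))
      ((j' t - m t * j t) * Real.exp (-∫ s in a..t, m s)) t := fun t ht => by
    have hn := Icc_mem_nhds ht.1 ht.2
    have e := intervalIntegral.integral_hasDerivAt_right (a := a) (hi.mono_set (by
      rw [uIcc_of_le hab, uIcc_of_le ht.1.le]; exact Icc_subset_Icc le_rfl ht.2.le))
      ((hm.mono Ioo_subset_Icc_self).stronglyMeasurableAtFilter isOpen_Ioo t ht)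
      (hm.continuousAt hn)
    exact ((hd t ht).mul e.neg.exp).congr_deriv (by simp only [Pi.neg_apply]; ring)
  have h1 := antitoneOn_of_deriv_nonpos (convex_Icc a b) (hc.mul c1.neg.rexp)
    (f := fun t => j t * Real.exp (-∫ s in a..t, m s))
    (fun t ht => (d1 t (by simpa using ht)).differentiableAt.differentiableWithinAt)
    (fun t ht => by
      have ht' : t ∈ Ioo a b := by simpa using ht
      rw [(d1 t ht').deriv]
      exact mul_nonpos_of_nonpos_of_nonneg (sub_nonpos.2 (h t ht')) (Real.exp_pos _).le)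
    (left_mem_Icc.2 hab) (right_mem_Icc.2 hab) hab
  simp only [intervalIntegral.integral_same, neg_zero, Real.exp_zero, mul_one] at h1
  rwa [Real.exp_neg, ← div_eq_mul_inv, div_le_iff₀ (Real.exp_pos _)] at h1

theorem sn_pos {k t : ℝ} (hk : 0 ≤ k) (ht : 0 < t) : 0 < sn k t := by
  unfold sn
  split_ifs with h
  · exact ht
  · have := hk.lt_of_ne' h
    exact div_pos (Real.sinh_pos_iff.2 (by positivity)) this

theorem le_sn {k t : ℝ} (hk : 0 ≤ k) (ht : 0 ≤ t) : t ≤ sn k t := by
  unfold sn
  split_ifs with h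
  · exact le_rfl
  · rw [le_div_iff₀ (hk.lt_of_ne' h), mul_comm]
    exact Real.self_le_sinh_iff.2 (by positivity)

theorem hasDerivAt_sn (k t : ℝ) : HasDerivAt (sn k) (Real.cosh (k * t)) t := by
  unfold sn
  split_ifs with h
  · simpa [h] using hasDerivAt_id' t
  · exact ((((hasDerivAt_id' t).const_mul k).sinh).div_const k).congr_deriv (by field_simp)

theorem continuousOn_ct {k : ℝ} (hk : 0 ≤ k) : ContinuousOn (ct k) (Ioi 0) := fun t ht =>
  (ContinuousAt.div (by fun_prop) (hasDerivAt_sn k t).continuousAt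
    (sn_pos hk ht).ne').continuousWithinAt

theorem integral_ct {k a b : ℝ} (hk : 0 ≤ k) (ha : 0 < a) (hab : a ≤ b) :
    ∫ t in a..b, ct k t = Real.log (sn k b) - Real.log (sn k a) := by
  have hs : uIcc a b ⊆ Ioi 0 := by rw [uIcc_of_le hab]; exact fun t ht => ha.trans_le ht.1
  exact intervalIntegral.integral_eq_sub_of_hasDerivAt (f := fun t => Real.log (sn k t))
    (fun t ht => (hasDerivAt_sn k t).log (sn_pos hk (hs ht)).ne')
    ((continuousOn_ct hk).mono hs).intervalIntegrable

theorem mul_ct_mono {k : ℝ} (hk : 0 ≤ k) : MonotoneOn (fun t => t * ct k t) (Ioi 0) := by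
  have d : ∀ t ∈ Ioi (0 : ℝ), HasDerivAt (fun t => t * ct k t) (1 * ct k t + t *
      ((Real.sinh (k * t) * (k * 1) * sn k t - Real.cosh (k * t) * Real.cosh (k * t)) /
        sn k t ^ 2)) t := fun t ht =>
    (hasDerivAt_id t).mul ((((hasDerivAt_id t).const_mul k).cosh).div (hasDerivAt_sn k t)
      (sn_pos hk ht).ne')
  refine monotoneOn_of_deriv_nonneg (convex_Ioi 0)
    (fun t ht => (d t ht).continuousAt.continuousWithinAt)
    (fun t ht => (d t (interior_subset ht)).differentiableAt.differentiableWithinAt) fun t ht => ?_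
  have ht' : 0 < t := interior_subset ht
  have p := sn_pos hk ht'
  have e : Real.sinh (k * t) * (k * 1) * sn k t = Real.sinh (k * t) ^ 2 := by
    unfold sn
    split_ifs with h
    · simp [h]
    · field_simp
  rw [(d t ht').deriv, e, ct]
  have e2 : 1 * (Real.cosh (k * t) / sn k t) + t * ((Real.sinh (k * t) ^ 2 -
      Real.cosh (k * t) * Real.cosh (k * t)) / sn k t ^ 2) =
      (Real.cosh (k * t) * sn k t - t) / sn k t ^ 2 := by
    rw [Real.sinh_sq]; field_simp; ring
  rw [e2]
  refine div_nonneg ?_ (sq_nonneg _)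
  nlinarith [Real.one_le_cosh (k * t), le_sn hk ht'.le]

theorem sn_ratio {k l d R : ℝ} (hk : 0 ≤ k) (h0 : 0 < l) (h1 : l ≤ 1) (hd : 0 < d) (hR : d ≤ R) :
    sn k (l * R) / sn k R ≤ sn k (l * d) / sn k d := by
  have D : ∀ t ∈ Ioi (0 : ℝ), HasDerivAt (fun t => Real.log (sn k (l * t)) - Real.log (sn k t))
      (l * ct k (l * t) - ct k t) t := fun t ht => by
    have a := ((hasDerivAt_sn k (l * t)).comp t ((hasDerivAt_id t).const_mul l)).log
      (sn_pos hk (mul_pos h0 ht)).ne'
    exact (a.sub ((hasDerivAt_sn k t).log (sn_pos hk ht).ne')).congr_deriv (by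
      simp only [ct, Function.comp]; ring)
  have A := antitoneOn_of_deriv_nonpos (convex_Ioi 0)
    (fun t ht => (D t ht).continuousAt.continuousWithinAt)
    (fun t ht => (D t (interior_subset ht)).differentiableAt.differentiableWithinAt)
    (fun t ht => by
      have ht' : 0 < t := interior_subset ht
      have := mul_ct_mono hk (mul_pos h0 ht') ht' (by nlinarith)
      rw [(D t ht').deriv]
      refine le_of_mul_le_mul_left ?_ ht'
      simp only at this
      linarith) hd (hd.trans_le hR) hR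
  have hR' := hd.trans_le hR
  simp only at A
  rw [← Real.log_div (sn_pos hk (mul_pos h0 hR')).ne' (sn_pos hk hR').ne',
    ← Real.log_div (sn_pos hk (mul_pos h0 hd)).ne' (sn_pos hk hd).ne'] at A
  exact (Real.log_le_log_iff (div_pos (sn_pos hk (mul_pos h0 hR')) (sn_pos hk hR'))
    (div_pos (sn_pos hk (mul_pos h0 hd)) (sn_pos hk hd))).1 A

variable {E : Type} [NormedAddCommGroup E] [NormedSpace ℝ E]

/-- the norm of a form -/
def nr (B : Bil E) (v : E) : ℝ := √(B v v)

theorem nr_smul (B : Bil E) {t : ℝ} (ht : 0 ≤ t) (v : E) : nr B (t • v) = t * nr B v := by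
  rw [nr, sqrt_smul, abs_of_nonneg ht, nr]

theorem continuous_nr (B : Bil E) : Continuous (nr B) := (continuous_form B).sqrt

theorem contDiffAt_nr {B : Bil E} {v : E} (h : 0 < B v v) : ContDiffAt ℝ ∞ (nr B) v :=
  (B.contDiff.clm_apply contDiff_id).contDiffAt.sqrt h.ne'

theorem hasFDerivAt_nr {B : Bil E} (hs : ∀ v w, B v w = B w v) {v : E} (h : 0 < B v v) :
    HasFDerivAt (nr B) ((nr B v)⁻¹ • B v) v := by
  have h1 := (B.hasFDerivAt (x := v)).clm_apply (hasFDerivAt_id v)
  refine (h1.sqrt h.ne').congr_fderiv ?_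
  ext w
  simp [nr, hs w v]
  ring

variable [FiniteDimensional ℝ E]

/-- the Laplacian of the radial function in normal coordinates -/
theorem lap_nr {G : E → Bil E} {V : Set E} (hG : IsMetricOn G V) {B : Bil E}
    (hs : ∀ v w, B v w = B w v) (hp : ∀ w ∈ V, 0 < B w w) (hB : ∀ w ∈ V, ∀ z, G w w z = B w z)
    {v : E} (hv : v ∈ V) : nr B v * dens G v * lapG G (nr B) v =
      fderiv ℝ (dens G) v v + ((Module.finrank ℝ E : ℝ) - 1) * dens G v := by
  have hL := localRiem_iff.2 hG
  have h1 := P210.R2.H934.div_dens_gradG hL hv (φ := nr B)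
    fun w hw => (contDiffAt_nr (hp w hw)).contDiffWithinAt
  have h2 : (fun y => dens G y • gradG G (nr B) y) =ᶠ[𝓝 v]
      fun y => (dens G y * (nr B y)⁻¹) • y := by
    filter_upwards [hG.isOpen.mem_nhds hv] with w hw
    have e : (nr B w)⁻¹ • B w = G w ((nr B w)⁻¹ • w) := by ext z; simp [hB w hw z]
    rw [gradG, (hasFDerivAt_nr hs (hp w hw)).fderiv, e, P210.R2.H934.inverse_spec' hL hw, mul_smul]
  have p : 0 < nr B v := Real.sqrt_pos.2 (hp v hv)
  have d1 : HasFDerivAt (dens G) (fderiv ℝ (dens G) v) v :=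
    (((P210.R2.H934.contDiffOn_dens hL).contDiffAt (hG.isOpen.mem_nhds hv)).differentiableAt
      (by simp)).hasFDerivAt
  have d2 := (d1.mul ((hasFDerivAt_inv' p.ne').comp v (hasFDerivAt_nr hs (hp v hv)))).smul
    (hasFDerivAt_id v)
  rw [h2.fderiv_eq, show fderiv ℝ (fun y => (dens G y * (nr B y)⁻¹) • y) v = _ from d2.fderiv]
    at h1
  have e : B v v = nr B v ^ 2 := (Real.sq_sqrt (hp v hv).le).symm
  simp only [ContinuousLinearMap.toLinearMap_add, map_add, ContinuousLinearMap.toLinearMap_smul, map_smul,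
    ContinuousLinearMap.coe_id, LinearMap.trace_id] at h1
  rw [show ∀ (a : E →L[ℝ] ℝ) (w : E), LinearMap.trace ℝ E (a.smulRight w : E →L[ℝ] E) = a w from
    fun a w => LinearMap.trace_smulRight (a : E →ₗ[ℝ] ℝ) w] at h1
  simp [e] at h1
  rw [mul_assoc, ← h1]
  field_simp
  ring

end Vale.Agent.P216BG
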