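import Vale.Agent.P216BG.Rad
import Vale.Agent.P216CP.Uniq
import Vale.Agent.P216BF.Curv
import Vale.Agent.P216FI.Vol
import Vale.Agent.P216R.Nat

/-!
# P216BG/Seg: the Jacobian of the exponential map along minimising geodesics
-/

open scoped Manifold ContDiff Topology ENNReal
open Set Filter MeasureTheory
open Vale.Agent.P216R Vale.Agent.P216CP Vale.Agent.P219.RG Vale.Agent.P216BF
open Vale.Agent.P210.R2.H53 (gradG lapG dens)

set_option maxSynthPendingDepth 3

noncomputable section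

namespace Vale.Agent.P216BG

variable {E : Type} [NormedAddCommGroup E] [NormedSpace ℝ E] [FiniteDimensional ℝ E]
  {M : Type} [TopologicalSpace M] [ChartedSpace E M] [IsManifold 𝓘(ℝ, E) ∞ M]
  {g : Ten E M} {U K : Set M} {x y : M} {u v w : E} {t L R : ℝ}

/-- curvature is locally bounded -/
theorem ev_rmB (hg : Met g U) (hx : x ∈ U) (k : ℕ) : ∃ C, ∀ᶠ y in 𝓝 x, RmB g k y C := by
  have hG := hg.isMetricOn x
  have hu := pt_mem_dom (E := E) hx
  obtain ⟨c, hc, h1⟩ := hG.lower_bound hu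
  obtain ⟨S, hS, hS1, hS2⟩ := local_compact_nhds (inter_mem (hG.mem_nhds hu) h1)
  obtain ⟨C, hC⟩ := (hS2.prod (isCompact_closedBall (0 : Fin (k + 4) → E)
    (√c⁻¹))).exists_bound_of_continuousOn (f := rmG (co g x) k) fun p hp =>
      (contDiffAt_rmG hG (hS1 hp.1).1 k p.2).continuousAt.continuousWithinAt
  refine ⟨C, ?_⟩
  filter_upwards [hg.isOpen.mem_nhds hx, (chartAt E x).open_source.mem_nhds (mem_chart_source E x),
    (chartAt E x).continuousAt (mem_chart_source E x) hS] with y y1 y2 y3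
  refine ((li_chart hg y1 y2).RmB k C).2 fun v hv => ?_
  rw [Rm_model]
  refine hC (_, v) ⟨y3, mem_closedBall_zero_iff.2 ((pi_norm_le_iff_of_nonneg
    (Real.sqrt_nonneg _)).2 fun i => Real.le_sqrt_of_sq_le ?_)⟩
  rw [← one_div, le_div_iff₀' hc]
  exact ((hS1 y3).2 (v i)).trans (hv i)

/-- curvature is bounded on compact sets -/
theorem exists_rmB (hg : Met g U) (hK : IsCompact K) (hU : K ⊆ U) (k : ℕ) :
    ∃ C, 0 ≤ C ∧ ∀ y ∈ K, RmB g k y C := by
  refine hK.induction_on (p := fun S => ∃ C, 0 ≤ C ∧ ∀ y ∈ S, RmB g k y C) ⟨0, le_rfl, by simp⟩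
    (fun S T e ⟨C, p, q⟩ => ⟨C, p, fun y hy => q y (e hy)⟩) ?_ fun x hx => ?_
  · rintro S T ⟨C, p, q⟩ ⟨D, -, q'⟩
    exact ⟨max C D, p.trans (le_max_left _ _), fun y hy v hv => hy.elim
      (fun h => (q y h v hv).trans (le_max_left _ _)) fun h => (q' y h v hv).trans (le_max_right _ _)⟩
  · obtain ⟨C, hC⟩ := ev_rmB hg (hU hx) k
    exact ⟨_, mem_nhdsWithin_of_mem_nhds hC, max C 0, le_max_right _ _,
      fun y hy v hv => (hy v hv).trans (le_max_left _ _)⟩

theorem exists_sec (hg : Met g U) (hK : IsCompact K) (hU : K ⊆ U) :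
    ∃ k, 0 ≤ k ∧ ∀ y ∈ K, SecGe g y (-k ^ 2) := by
  obtain ⟨C, h0, hC⟩ := exists_rmB hg hK hU 0
  exact ⟨√C, Real.sqrt_nonneg _, fun y hy => by
    rw [Real.sq_sqrt h0]; exact secGe_of_rmB hg (hU hy) (hC y hy)⟩

omit [FiniteDimensional ℝ E] in
theorem rd_cd {f : M → ℝ} (hf : ContMDiffAt 𝓘(ℝ, E) 𝓘(ℝ, ℝ) ∞ f y) :
    ContDiffAt ℝ ∞ (rd E f y) (pt E y) :=
  (ContMDiffAt.comp (pt E y) (by rwa [symm_pt]) (sm_symm (pt_mem y))).contDiffAt

theorem den_pos {B : Bil E} (hs : ∀ v w, B v w = B w v) (hp : ∀ v, v ≠ 0 → 0 < B v v) :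
    0 < den B :=
  P210.R2.H934.dens_pos (G := fun _ => B) (U := univ) (z := 0)
    ⟨isOpen_univ, contDiffOn_const, fun _ _ => hs, fun _ _ => hp⟩ (mem_univ _)

/-- the Jacobian of the exponential map -/
def jac (g : Ten E M) (U : Set M) (x : M) : E → ℝ := dens (comap (expo g U x) g)

/-- the regular points of the exponential map -/
def Reg (g : Ten E M) (U : Set M) (x : M) : Set E := {w | w ∈ Dom g U x ∧ 0 < jac g U x w}

/-- the minimising vectors -/
def Mn (g : Ten E M) (U : Set M) (x : M) : Set E :=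
  {w | w ∈ Dom g U x ∧ ed g U x (expo g U x w) = ENNReal.ofReal (nr (g x) w)}

omit [IsManifold 𝓘(ℝ, E) ∞ M] in
theorem jac_eq (w : E) :
    jac g U x w = |(md E (expo g U x) w).det| * den (g (expo g U x w)) := den_comp _ _

omit [IsManifold 𝓘(ℝ, E) ∞ M] in
theorem jac_nonneg (w : E) : 0 ≤ jac g U x w := den_nonneg _

theorem continuousAt_jac (hg : Met g U) (hH : Hs U) (hw : w ∈ Dom g U x) :
    ContinuousAt (jac g U x) w :=
  continuous_den.continuousAt.comp
    (hg.contDiffAt (contMDiffAt_expo hg hH hw) (expo_mem hg hH hw)).continuousAt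

theorem isOpen_Reg (hg : Met g U) (hH : Hs U) : IsOpen (Reg g U x) :=
  isOpen_iff_mem_nhds.2 fun _ hw => inter_mem ((isOpen_Dom hg hH).mem_nhds hw.1)
    ((continuousAt_jac hg hH hw.1).eventually (lt_mem_nhds hw.2))

theorem ld_Reg (hg : Met g U) (hH : Hs U) : LD E (expo g U x) (Reg g U x) :=
  ⟨isOpen_Reg hg hH, (contMDiffOn_expo hg hH).mono fun _ h => h.1, fun w hw => by
    have h : (md E (expo g U x) w).det ≠ 0 := fun h => by simpa [jac_eq, h] using hw.2
    exact (LinearMap.equivOfDetNeZero _ h).injective⟩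

omit [FiniteDimensional ℝ E] in
theorem nr_nonneg (B : Bil E) (w : E) : 0 ≤ nr B w := Real.sqrt_nonneg _

omit [FiniteDimensional ℝ E] in
theorem unit_of_nr {B : Bil E} (h : 0 < nr B w) : B ((nr B w)⁻¹ • w) ((nr B w)⁻¹ • w) = 1 :=
  Real.sqrt_eq_one.1 ((nr_smul B (inv_pos.2 h).le w).trans (inv_mul_cancel₀ h.ne'))

omit [FiniteDimensional ℝ E] in
theorem nr_unit {B : Bil E} (hu : B u u = 1) (ht : 0 ≤ t) : nr B (t • u) = t := by
  rw [nr_smul B ht, nr, hu, Real.sqrt_one, mul_one]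

theorem minGeo_of_Mn (hg : Met g U) (hH : Hs U) (hu : g x u u = 1) (hL : 0 ≤ L)
    (h : L • u ∈ Mn g U x) : L ∈ Life g U x u ∧ MinGeo g U (ray g U x u) L := by
  have h1 := (smul_mem_Dom hg hH).1 h.1
  refine ⟨h1, minGeo_ray hg hH hu hL h1 ?_⟩
  rw [← expo_smul hg hH h1, h.2, nr_unit hu hL]

theorem Mn_of_le (hg : Met g U) (hH : Hs U) (hu : g x u u = 1) (h : L • u ∈ Mn g U x)
    (ht : t ∈ Icc 0 L) : t • u ∈ Mn g U x := by
  obtain ⟨h1, h2⟩ := minGeo_of_Mn hg hH hu (ht.1.trans ht.2) h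
  have h3 := Icc_subset_Life h1 ht
  refine ⟨(smul_mem_Dom hg hH).2 h3, ?_⟩
  have := minGeo_ed' h2 ht
  rw [nr_unit hu ht.1, expo_smul hg hH h3]
  rwa [ray_zero hg hH] at this

/-- an extendable minimiser is the only minimiser -/
theorem uniq (hg : Met g U) (hH : Hs U) (hu : g x u u = 1) (h : L • u ∈ Mn g U x)
    (ht : t ∈ Ioo 0 L) (hw : w ∈ Mn g U x) (e : expo g U x w = expo g U x (t • u)) :
    w = t • u := by
  have ht' : t ∈ Icc 0 L := Ioo_subset_Icc_self ht
  obtain ⟨h1, h2⟩ := minGeo_of_Mn hg hH hu (ht.1.trans ht.2).le h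
  have h3 := Icc_subset_Life h1 ht'
  have hx := mem_of_Life h1
  have n : nr (g x) w = t := by
    have := hw.2.symm.trans (e ▸ (Mn_of_le hg hH hu h ht').2)
    rwa [ENNReal.ofReal_eq_ofReal_iff (nr_nonneg _ _) (nr_nonneg _ _), nr_unit hu ht'.1] at this
  have hu' := unit_of_nr (B := g x) (w := w) (n ▸ ht.1)
  rw [n] at hu'
  have ew : w = t • t⁻¹ • w := (smul_inv_smul₀ ht.1.ne' w).symm
  generalize t⁻¹ • w = u' at hu' ew
  subst ew
  have h4 := (smul_mem_Dom hg hH).1 hw.1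
  rw [expo_smul hg hH h4, expo_smul hg hH h3] at e
  have := minGeo_ed h2
  rw [ray_zero hg hH] at this
  rw [uniq_ray hg hH hu hu' ht.1 ht.2 h1 this.ge h4 e]

theorem isCompact_Mn (hg : Met g U) (hH : Hs U) {S : Set E} (hS : IsCompact S)
    (hD : S ⊆ Dom g U x) : IsCompact (S ∩ Mn g U x) := by
  have c : ContinuousOn (fun w => (ENNReal.ofReal (nr (g x) w), ed g U x (expo g U x w))) S :=
    fun w hw => ((ENNReal.continuous_ofReal.comp (continuous_nr _)).continuousAt.prodMk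
      ((hg.continuousAt_ed_right x (expo_mem hg hH (hD hw))).comp
        (continuousAt_expo hg hH (hD hw)))).continuousWithinAt
  refine hS.of_isClosed_subset ?_ inter_subset_left
  convert c.preimage_isClosed_of_isClosed hS.isClosed isClosed_diagonal using 1
  ext w
  exact ⟨fun h => ⟨h.1, h.2.2.symm⟩, fun h => ⟨h.1, hD h.1, Eq.symm h.2⟩⟩

/-- near an extendable regular minimising vector all vectors are minimising -/
theorem Mn_mem_nhds (hg : Met g U) (hH : Hs U) (hc : Cpt g U x R) (hu : g x u u = 1)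
    (h : L • u ∈ Mn g U x) (ht : t ∈ Ioo 0 L) (hR : t < R) (hr : t • u ∈ Reg g U x) :
    Mn g U x ∈ 𝓝 (t • u) := by
  have hx := mem_of_Life h.1
  obtain ⟨k, -, k2, -⟩ := exists_inv ((ld_Reg hg hH).sm hr) ((ld_Reg hg hH).inj _ hr)
  obtain ⟨N, hN, hN1, hN2⟩ := eventually_nhds_iff.1 k2
  obtain ⟨ρ, ρ1, ρ2⟩ := exists_between hR
  have hD : {w | √(g x w w) ≤ ρ} \ N ⊆ Dom g U x := fun w hw =>
    tb_subset_Dom hg hH hc hx (lt_of_le_of_lt hw.1 ρ2)
  have hZ := isCompact_Mn hg hH ((isCompact_ctb (hg.pos x hx) ρ).diff hN1) hD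
  have hZ' := hZ.image_of_continuousOn fun w hw =>
    (continuousAt_expo hg hH hw.2.1).continuousWithinAt
  have h1 := hH.compl_mem hZ' (by rintro _ ⟨w, hw, rfl⟩; exact expo_mem hg hH hw.2.1)
    (expo_mem hg hH hr.1) (by
      rintro ⟨w, hw, e⟩
      exact hw.1.2 (uniq hg hH hu h ht hw.2 e ▸ hN2))
  have h2 : tb (g x) ρ ∈ 𝓝 (t • u) :=
    (isOpen_tb _ _).mem_nhds ((nr_unit hu ht.1.le).trans_lt ρ1)
  filter_upwards [continuousAt_expo hg hH hr.1 h1, hN1.mem_nhds hN2, h2] with w w1 w2 w3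
  have w4 := tb_subset_Dom hg hH (hc.mono ρ2.le) hx w3
  have w5 : expo g U x w ∈ bl g U x ρ := (ed_expo_le hg hH w4).trans_lt
    ((ENNReal.ofReal_lt_ofReal_iff (ht.1.trans ρ1)).2 w3)
  obtain ⟨w', a1, a2, a3⟩ := exists_expo hg hH (hc.mono ρ2.le) w5
  have a4 : w' ∈ Mn g U x := ⟨tb_subset_Dom hg hH (hc.mono ρ2.le) hx a1, by
    rw [a2, nr, a3, ofReal_dd (ne_top_of_bl w5)]⟩
  have a5 : w' ∈ N := by_contra fun hn => w1 ⟨w', ⟨⟨le_of_lt (show _ < ρ from a1), hn⟩, a4⟩, a2⟩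
  rwa [← hN w w2, ← a2, hN w' a5]

theorem met_Reg (hg : Met g U) (hH : Hs U) :
    IsMetricOn (comap (expo g U x) g) (Reg g U x \ {0}) :=
  hg.isMetricOn_comap ((ld_Reg hg hH).mono ((isOpen_Reg hg hH).sdiff isClosed_singleton)
    sdiff_subset) fun _ hw => expo_mem hg hH hw.1.1

theorem lap_comp (hg : Met g U) (hH : Hs U) (hv : v ∈ Reg g U x) {f : M → ℝ}
    (hf : ContMDiffAt 𝓘(ℝ, E) 𝓘(ℝ, ℝ) ∞ f (expo g U x v)) :
    ContDiffAt ℝ ∞ (f ∘ expo g U x) v ∧
      lapG (comap (expo g U x) g) (f ∘ expo g U x) v = lap g f (expo g U x v) :=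
  ⟨(hf.comp v (contMDiffAt_expo hg hH hv.1)).contDiffAt, by
    rw [← lap_model, (li_comap hg (ld_Reg hg hH) hv (expo_mem hg hH hv.1)).lap
      ((rd_cd hf).of_le (by decide))]⟩

/-- the radial derivative of the volume element -/
theorem hasDerivAt_jac (hg : Met g U) (hH : Hs U) (hu : g x u u = 1) (ht : 0 < t)
    (hr : t • u ∈ Reg g U x) :
    HasDerivAt (fun s => s ^ Module.finrank ℝ E * jac g U x (s • u))
      ((lapG (comap (expo g U x) g) (nr (g x)) (t • u) + t⁻¹) *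
        (t ^ Module.finrank ℝ E * jac g U x (t • u))) t := by
  have hx := mem_of_Life hr.1
  have h0 : t • u ≠ 0 := fun h => by simpa [h, nr, ht.ne] using nr_unit hu ht.le
  have hG := met_Reg hg hH (x := x)
  have h1 := lap_nr hG (hg.symm x hx) (fun w hw => hg.pos x hx w hw.2)
    (fun w hw z => gauss hg hH hw.1.1 z) ⟨hr, h0⟩
  have d1 : HasFDerivAt (jac g U x) (fderiv ℝ (jac g U x) (t • u)) (t • u) :=
    (((P210.R2.H934.contDiffOn_dens (localRiem_iff.2 hG)).contDiffAt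
      (hG.isOpen.mem_nhds ⟨hr, h0⟩)).differentiableAt (by simp)).hasFDerivAt
  have d2 := (hasDerivAt_pow (Module.finrank ℝ E) t).mul
    (d1.comp_hasDerivAt t ((hasDerivAt_id' t).smul_const u))
  refine d2.congr_deriv ?_
  rw [nr_unit hu ht.le, map_smul, smul_eq_mul] at h1
  change t * jac g U x _ * _ = t * fderiv ℝ (jac g U x) _ u + _ * jac g U x _ at h1
  have e : (Module.finrank ℝ E : ℝ) * t ^ (Module.finrank ℝ E - 1) =
      Module.finrank ℝ E * t⁻¹ * t ^ Module.finrank ℝ E := by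
    cases Module.finrank ℝ E with
    | zero => simp
    | succ n => simp only [Nat.add_sub_cancel, pow_succ]; field_simp
  rw [e, one_smul, Function.comp]
  field_simp
  linear_combination -h1

theorem continuousOn_jac (hg : Met g U) (hH : Hs U) (hL : L ∈ Life g U x u) :
    ContinuousOn (fun s => s ^ Module.finrank ℝ E * jac g U x (s • u)) (Icc 0 L) := fun s hs =>
  ((continuousAt_pow s _).mul (ContinuousAt.comp (f := fun s : ℝ => s • u) (continuousAt_jac hg hH
    ((smul_mem_Dom hg hH).2 (Icc_subset_Life hL hs))) (by fun_prop))).continuousWithinAt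

/-- no conjugate points in the interior of a minimising geodesic -/
theorem mem_Reg (hS : SUPL E) (hg : Met g U) (hH : Hs U) (hu : g x u u = 1)
    (h : L • u ∈ Mn g U x) (ht : t ∈ Ico 0 L) : t • u ∈ Reg g U x := by
  obtain ⟨h1, h2⟩ := minGeo_of_Mn hg hH hu (ht.1.trans ht.2.le) h
  have hx := mem_of_Life h1
  have hI := Icc_subset_Life h1
  have hD : ∀ s ∈ Icc 0 L, s • u ∈ Dom g U x := fun s hs => (smul_mem_Dom hg hH).2 (hI hs)
  by_contra hne
  have c : ContinuousOn (fun s : ℝ => jac g U x (s • u)) (Icc 0 t) := fun s hs =>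
    (ContinuousAt.comp (f := fun s : ℝ => s • u) (continuousAt_jac hg hH
      (hD s ⟨hs.1, hs.2.trans ht.2.le⟩)) (by fun_prop)).continuousWithinAt
  obtain ⟨b, ⟨hb, hb0⟩, hb'⟩ := (isCompact_Icc.of_isClosed_subset
    (c.preimage_isClosed_of_isClosed isClosed_Icc (isClosed_Iic (a := 0)))
    inter_subset_left).exists_isLeast ⟨t, right_mem_Icc.2 ht.1,
      not_lt.1 fun h' => hne ⟨hD t (Ico_subset_Icc_self ht), h'⟩⟩
  have hbL : b < L := hb.2.trans_lt ht.2
  have hr : ∀ s ∈ Ico 0 b, s • u ∈ Reg g U x := fun s hs =>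
    ⟨hD s ⟨hs.1, (hs.2.trans hbL).le⟩, not_le.1 fun h' =>
      hs.2.not_ge (hb' ⟨⟨hs.1, hs.2.le.trans hb.2⟩, h'⟩)⟩
  have b0 : 0 < b := hb.1.lt_of_ne fun e => by
    subst e
    refine absurd (show jac g U x ((0 : ℝ) • u) ≤ 0 from hb0) (not_le.2 ?_)
    rw [zero_smul, jac, dens_eq, comap_expo_zero hg hH hx]
    exact den_pos (hg.symm x hx) (hg.pos x hx)
  obtain ⟨k, k0, hk⟩ := exists_sec hg (isCompact_Icc.image_of_continuousOn
    ((isGeo_ray hg hH).cont.mono hI)) (by rintro _ ⟨s, hs, rfl⟩; exact minGeo_mem h2 hs)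
  have key := le_mul_exp (a := b / 2) (b := b)
    (j := fun s => -(s ^ Module.finrank ℝ E * jac g U x (s • u)))
    (m := fun s => -(((Module.finrank ℝ E : ℝ) - 1) * ct k (L - s)) + s⁻¹) (by linarith)
    ((continuousOn_jac hg hH h1).mono (Icc_subset_Icc (by linarith) hbL.le)).neg
    ((continuousOn_const.mul (ContinuousOn.comp (f := fun s => L - s) (s := Icc (b / 2) b)
      (continuousOn_ct k0) (by fun_prop) fun s hs => sub_pos.2 (hs.2.trans_lt hbL))).neg.add
      (continuousOn_inv₀.mono fun s (hs : s ∈ Icc (b / 2) b) =>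
        (show 0 < s by linarith [hs.1]).ne'))
    (fun s hs => (hasDerivAt_jac hg hH hu (by linarith [hs.1])
      (hr s ⟨by linarith [hs.1], hs.2⟩)).neg) fun s hs => ?_
  · have p1 := (hr (b / 2) ⟨by linarith, by linarith⟩).2
    have p2 : jac g U x (b • u) = 0 := le_antisymm hb0 (jac_nonneg _)
    simp only [p2, mul_zero, neg_zero, neg_mul, le_neg] at key
    exact absurd key (not_le.2 (by positivity))
  have s0 : 0 < s := by linarith [hs.1]
  have sL : s < L := hs.2.trans hbL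
  have rs := hr s ⟨s0.le, hs.2⟩
  obtain ⟨m1, m2⟩ := minGeo_rev h2
  obtain ⟨f, hf, -, hl⟩ := hS M g U _ (L - s) k hg hH (minGeo_mono m1 (by linarith) (by linarith))
    (by linarith) k0 fun r hr => by
      have r' : L - r ∈ Icc 0 L := ⟨by linarith [hr.2], by linarith [hr.1]⟩
      have := ricGe_of_sec hg (minGeo_mem h2 r') (hk _ (mem_image_of_mem _ r'))
        (vel E (fun t => ray g U x u (L - t)) r)
      rw [minGeo_sp m1 ⟨hr.1, by linarith [hr.2]⟩] at this
      linarith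
  simp only [sub_zero, sub_sub_cancel] at hf hl
  have sI : s ∈ Icc 0 L := ⟨s0.le, sL.le⟩
  rw [← expo_smul hg hH (hI sI)] at hf hl
  obtain ⟨c1, c2⟩ := lap_comp hg hH rs hf.smooth
  have n1 := nr_unit hu s0.le
  have h0 : s • u ≠ 0 := fun h => by simp [h, nr, s0.ne] at n1
  have cn := contDiffAt_nr (hg.pos x hx _ h0)
  have fe : f (expo g U x (s • u)) = L - s := by
    have := hf.eq.symm.trans (expo_smul hg hH (hI sI) ▸ h2.min L ⟨h2.nonneg, le_rfl⟩ s sI)
    rwa [ENNReal.ofReal_eq_ofReal_iff hf.nonneg (abs_nonneg _), abs_of_pos (by linarith)] at this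
  have q := P216MP.lapG_nonneg ((met_Reg hg hH).pos _ ⟨rs, h0⟩)
    ((met_Reg hg hH).symm _ ⟨rs, h0⟩) (cn.add c1) (by
      filter_upwards [continuousAt_expo hg hH rs.1 hf.le, (isOpen_Dom hg hH).mem_nhds rs.1,
        c1.continuousAt.eventually (lt_mem_nhds (show 0 < (f ∘ expo g U x) (s • u) by
          rw [Function.comp, fe]; linarith))] with w w1 w2 w3
      have t1 := ed_le_add (ed_expo_le hg hH w2) (ed_comm.trans_le w1) (Real.sqrt_nonneg _) w3.le
      have t2 := minGeo_ed h2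
      rw [ray_zero hg hH] at t2
      rw [t2] at t1
      rw [n1, Function.comp, fe, add_sub_cancel]
      exact (ENNReal.ofReal_le_ofReal_iff (add_nonneg (Real.sqrt_nonneg _) w3.le)).1 t1)
  rw [P216MP.lapG_add cn c1, c2] at q
  have p : 0 ≤ s ^ Module.finrank ℝ E * jac g U x (s • u) :=
    mul_nonneg (by positivity) (jac_nonneg _)
  nlinarith

/-- radial comparison for the Jacobian -/
theorem jac_le (hS : SUPL E) (hg : Met g U) (hH : Hs U) (hc : Cpt g U x R) (hu : g x u u = 1)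
    (h : L • u ∈ Mn g U x) (hR : L ≤ R) {a : ℝ} (ha : 0 < a) (haL : a ≤ L) {m : ℝ → ℝ}
    (hm : ContinuousOn m (Icc a L)) (hf : ∀ t ∈ Ioo a L,
      ∃ f, Sup g U x (ray g U x u t) f ∧ lap g f (ray g U x u t) ≤ m t) :
    a * (L ^ Module.finrank ℝ E * jac g U x (L • u)) ≤
      L * (a ^ Module.finrank ℝ E * jac g U x (a • u)) * Real.exp (∫ t in a..L, m t) := by
  obtain ⟨h1, h2⟩ := minGeo_of_Mn hg hH hu (ha.le.trans haL) h
  have hx := mem_of_Life h1
  have ci : ContinuousOn (fun s : ℝ => s⁻¹) (Icc a L) :=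
    continuousOn_inv₀.mono fun s hs => (ha.trans_le hs.1).ne'
  have key := le_mul_exp (j := fun s => s ^ Module.finrank ℝ E * jac g U x (s • u))
    (m := fun s => m s + s⁻¹) haL
    ((continuousOn_jac hg hH h1).mono (Icc_subset_Icc ha.le le_rfl)) (hm.add ci)
    (fun s hs => hasDerivAt_jac hg hH hu (ha.trans hs.1)
      (mem_Reg hS hg hH hu h ⟨(ha.trans hs.1).le, hs.2⟩)) fun s hs => ?_
  · have hu' := (uIcc_of_le haL).subset
    rw [intervalIntegral.integral_add (hm.mono hu').intervalIntegrable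
      (ci.mono hu').intervalIntegrable, integral_inv_of_pos ha (ha.trans_le haL), Real.exp_add,
      Real.exp_log (div_pos (ha.trans_le haL) ha)] at key
    refine (mul_le_mul_of_nonneg_left key ha.le).trans_eq ?_
    field_simp
  have s0 := ha.trans hs.1
  have rs := mem_Reg hS hg hH hu h ⟨s0.le, hs.2⟩
  obtain ⟨f, hf, hl⟩ := hf s hs
  rw [← expo_smul hg hH (Icc_subset_Life h1 ⟨s0.le, hs.2.le⟩)] at hf hl
  obtain ⟨c1, c2⟩ := lap_comp hg hH rs hf.smooth
  have n1 := nr_unit hu s0.le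
  have h0 : s • u ≠ 0 := fun h => by simp [h, nr, s0.ne] at n1
  have cn := contDiffAt_nr (hg.pos x hx _ h0)
  have hM := Mn_mem_nhds hg hH hc hu h ⟨s0, hs.2⟩ (hs.2.trans_le hR) rs
  have fe : f (expo g U x (s • u)) = nr (g x) (s • u) := by
    have := hf.eq.symm.trans (mem_of_mem_nhds hM).2
    rwa [ENNReal.ofReal_eq_ofReal_iff hf.nonneg (nr_nonneg _ _)] at this
  have q := P216MP.lapG_nonneg ((met_Reg hg hH).pos _ ⟨rs, h0⟩)
    ((met_Reg hg hH).symm _ ⟨rs, h0⟩) (c1.sub cn) (by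
      filter_upwards [continuousAt_expo hg hH rs.1 hf.le, hM,
        cn.continuousAt.eventually (lt_mem_nhds (n1.symm ▸ s0))] with w w1 w2 w3
      have w4 : ENNReal.ofReal (nr (g x) w) ≤ _ := w2.2.symm.trans_le w1
      rw [Function.comp, fe, sub_self, sub_nonneg]
      exact (ENNReal.ofReal_le_ofReal_iff'.1 w4).resolve_right (not_le.2 w3))
  rw [P216MP.lapG_sub c1 cn, c2] at q
  exact mul_le_mul_of_nonneg_right (by linarith) (mul_nonneg (by positivity) (jac_nonneg _))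

end Vale.Agent.P216BG
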