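import Vale.Agent.P216FA.Plan
import Vale.Agent.P216DC.Line
import Vale.Agent.P216CY.Tr
import Vale.Agent.P216MP.Rig

/-!
# P216BG/Spl: almost lines and splittings
-/

open scoped Manifold ContDiff Topology ENNReal
open Set Filter MeasureTheory
open Vale.Agent.P216R Vale.Agent.P216CP Vale.Agent.P216FA Vale.Agent.P216BF Vale.Agent.P216DC

set_option maxSynthPendingDepth 3

noncomputable section

namespace Vale.Agent.P216BG

theorem als : ALS := fun _ _ _ _ e h hx hA =>
  spl_of_al h.met h.hs h.con h.cpl h.sec hx (le_max_right e 0) fun l =>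
    let ⟨p, hp, q, hq, h1, h2, h3⟩ := hA l
    ⟨p, hp, q, hq, h1, h2, h3.trans (add_le_add le_rfl (le_max_left _ _))⟩

theorem sln : SLN := by
  intro X g U b x hg hH hc hb hx
  have h : P216CY.Spc g U b := ⟨hg, hH, hc, hb⟩
  have f : ∀ s, ed g U x (P216CY.tr g U b s x) ≠ ⊤ := fun s =>
    ne_top_of_le_ne_top ENNReal.ofReal_ne_top (h.ed_le hx s)
  have lip : ∀ y z, ed g U y z ≠ ⊤ → |b z - b y| ≤ dd g U y z := fun y z hf => by
    have := hg.lip_of_gam (hb.smooth.of_le (by simp)) one_pos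
      (fun z hz => by rw [hb.unit z hz, one_pow]) y z
    rwa [ENNReal.ofReal_one, one_mul, ed_eq_dd hf, ENNReal.ofReal_le_ofReal_iff dd_nonneg] at this
  have d : ∀ s, dd g U x (P216CY.tr g U b s x) = |s| := fun s => le_antisymm
    (ENNReal.toReal_le_of_le_ofReal (abs_nonneg s) (h.ed_le hx s))
    (by simpa [h.val hx] using lip _ _ (f s))
  refine ⟨fun l => ⟨_, h.mem hx (-|l|), _, h.mem hx |l|, ?_⟩, fun k hk hR => ?_⟩
  · have := (le_abs_self _).trans (lip _ _ (ed_ne_top_trans (ed_comm.trans_ne (f (-|l|))) (f |l|)))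
    rw [h.val hx, h.val hx] at this
    rw [d, d, abs_neg, abs_abs]
    exact ⟨le_abs_self l, le_abs_self l, by linarith⟩
  have := hR (grad g b x)
  rw [P216CY.spl_ric hg hb hx, h.d_grad hx, h.unit hx] at this
  linarith

theorem bsp : BSP := by
  intro X g U f a b K hab hg h _ hf
  rcases hab.eq_or_lt with rfl | hab
  · exact ⟨f, hf⟩
  have h1 := P216MP.s2 (hg.mono_time Ioc_subset_Icc_self) (h a ⟨le_rfl, hab.le⟩).1.con
    (fun t ht => (h t (Ioc_subset_Icc_self ht)).1.sec) hf
  have ha : a ∈ Icc a b := ⟨le_rfl, hab.le⟩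
  have hc : a ∈ closure (Ioc a b) := by rw [closure_Ioc hab.ne]; exact ha
  have p := fun x hx => ps_const (P216MP.sm0_sa hg.isOpen (P216MP.sm0_of hf.smooth) (x := x) hx)
    (Icc a b) a
  refine ⟨f, hf.smooth, fun x hx => ?_, fun x hx => ?_⟩
  · simpa [hess] using ((((hg.toFam.ps ha (pt_mem_dom hx)).hessG ha (hg.toFam.co_pos ha (pt_mem_dom hx))
      (p x hx)).time.continuousWithinAt).mono Ioc_subset_Icc_self).mem_closure (t := {0}) hc
      fun s hs => (h1 s hs).hess x hx
  · simpa [gam] using ((((hg.toFam.ps ha (pt_mem_dom hx)).gamG ha (hg.toFam.co_pos ha (pt_mem_dom hx))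
      (p x hx) (p x hx)).time.continuousWithinAt).mono Ioc_subset_Icc_self).mem_closure (t := {1})
      hc fun s hs => (h1 s hs).unit x hx

end Vale.Agent.P216BG
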